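import Crest.Agent.H0554.Four

/-! Algebraic lemmas on multilinear extensions. -/

set_option autoImplicit false
set_option linter.unusedSectionVars false

namespace Crest.Agent.H0554

open Finset Function

theorem swap_sum {I C M : Type} [Fintype I] [DecidableEq I] [Fintype C] [AddCommMonoid M] (r : I)
    (F : (I → C) → C → M) : ∑ a, ∑ b, F a b = ∑ a, ∑ b, F (update a r b) (a r) := by
  have hi : Involutive fun p : (I → C) × C => (update p.1 r p.2, p.1 r) := fun p => by simp
  rw [← Fintype.sum_prod_type', ← Fintype.sum_prod_type']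
  exact (Equiv.sum_comp hi.toPerm fun p => F p.1 p.2).symm

theorem avg_sum {I C : Type} [Fintype I] [DecidableEq I] [Fintype C] (r : I)
    (F : (I → C) → ℝ) : ∑ a, ∑ b, F (update a r b) = Fintype.card C * ∑ a, F a := by
  rw [← swap_sum r fun a _ => F a]
  simp [mul_sum]

theorem deriv_prod {R I : Type} [CommRing R] [Algebra ℝ R] [DecidableEq I] (δ : Derivation ℝ R R)
    (f : I → R) (S : Finset I) : δ (∏ j ∈ S, f j) = ∑ i ∈ S, δ (f i) * ∏ j ∈ S.erase i, f j := by
  induction S using Finset.induction_on with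
  | empty => simp
  | insert a S ha ih =>
    rw [prod_insert ha, sum_insert ha, erase_insert ha, δ.leibniz, ih, smul_eq_mul, smul_eq_mul,
      mul_sum, add_comm, mul_comm]
    congr 1
    refine sum_congr rfl fun i hi => ?_
    rw [erase_insert_of_ne (by rintro rfl; exact ha hi), prod_insert (by simp [ha])]
    ring

theorem deriv_sum_apply {R T : Type} [CommRing R] [Algebra ℝ R] (S : Finset T)
    (δ : T → Derivation ℝ R R) (p : R) : (∑ t ∈ S, δ t) p = ∑ t ∈ S, δ t p := by
  classical
  induction S using Finset.induction_on with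
  | empty => simp
  | insert a S ha ih => rw [sum_insert ha, sum_insert ha, Derivation.add_apply, ih]

variable {I : Type} [Fintype I] [DecidableEq I] {R : Type} [CommRing R] [Algebra ℝ R]

theorem DD_map {R' : Type} [CommRing R'] [Algebra ℝ R'] (φ : R →ₐ[ℝ] R') (f : (I → Bool) → ℝ)
    (A : Finset I) (z : I → R) : φ (DD f A z) = DD f A fun j => φ (z j) := by
  simp only [DD, map_sum, map_smul, map_prod, apply_ite φ, AlgHom.commutes, map_add]

theorem DD_deriv (δ : Derivation ℝ R R) (f : (I → Bool) → ℝ) (A : Finset I) (z : I → R) :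
    δ (DD f A z) = ∑ i, if i ∈ A then 0 else δ (z i) * DD f (insert i A) z := by
  simp only [DD, map_sum, Derivation.map_smul, deriv_prod, smul_sum]
  rw [sum_comm]
  refine sum_congr rfl fun i _ => ?_
  split_ifs with hi
  · simp
  · rw [mul_sum]
    refine sum_congr rfl fun x _ => ?_
    rw [← mul_prod_erase univ _ (mem_univ i), prod_congr (s₁ := univ.erase i) rfl
      (f := fun j => if j ∈ insert i A then _ else _) (g := fun j => if j ∈ A then
        algebraMap ℝ R (sg (x j) / 2) else algebraMap ℝ R (1 / 2) + (sg (x j) / 2) • z j)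
      fun j hj => by simp [ne_of_mem_erase hj]]
    simp only [mem_insert, true_or, if_true, map_add, Derivation.map_algebraMap, zero_add,
      Algebra.smul_def]
    simp only [← Algebra.smul_def, Derivation.map_smul]
    simp only [Algebra.smul_def]
    ring

theorem DD_one (z : I → ℝ) : DD (fun _ => 1) ∅ z = 1 := by
  simp only [DD, notMem_empty, if_false, one_smul]
  rw [← Fintype.piFinset_univ, ← prod_univ_sum (fun _ => univ)
    fun j b => algebraMap ℝ ℝ (1 / 2) + (sg b / 2) • z j]
  exact prod_eq_one fun j _ => by simp [sg]; ring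

theorem DD_abs (f : (I → Bool) → ℝ) (hf : ∀ x, |f x| ≤ 1) (z : I → ℝ) :
    |DD f ∅ z| ≤ ∏ j, max 1 (2 * |z j|) := by
  simp only [DD, notMem_empty, if_false]
  refine (abs_sum_le_sum_abs _ _).trans ?_
  calc _ ≤ ∑ x : I → Bool, ∏ j, |1 / 2 + sg (x j) / 2 * z j| := sum_le_sum fun x _ => by
        rw [smul_eq_mul, abs_mul, abs_prod]
        exact mul_le_of_le_one_left (by positivity) (hf x)
    _ = ∏ j, ∑ b, |1 / 2 + sg b / 2 * z j| := by rw [prod_univ_sum, Fintype.piFinset_univ]
    _ ≤ _ := by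
        gcongr with j
        have h1 := le_max_left 1 (2 * |z j|)
        have h2 := le_max_right 1 (2 * |z j|)
        simp only [Fintype.sum_bool, sg, if_true, Bool.false_eq_true, if_false]
        have := le_abs_self (z j)
        have := neg_abs_le (z j)
        rcases abs_cases (1 / 2 + -1 / 2 * z j) with ⟨h, _⟩ | ⟨h, _⟩ <;>
        rcases abs_cases (1 / 2 + 1 / 2 * z j) with ⟨h', _⟩ | ⟨h', _⟩ <;> linarith

theorem DD_mul (i : I) (g : (I → Bool) → ℝ) (hg : ∀ x b, g (update x i b) = g x) (z : I → ℝ) :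
    DD (fun x => sg (x i) * g x) ∅ z = z i * DD g ∅ z := by
  have : ∀ ψ : Bool → ℝ, 2 * DD (fun x => ψ (x i) * g x) ∅ z = (∑ b, ψ b * (1 / 2 + sg b / 2 * z i))
      * ∑ x, g x * ∏ j ∈ univ.erase i, (1 / 2 + sg (x j) / 2 * z j) := fun ψ => by
    have := avg_sum i fun x : I → Bool => ψ (x i) * g x * ∏ j, (1 / 2 + sg (x j) / 2 * z j)
    simp only [DD, notMem_empty, if_false, smul_eq_mul]
    refine (this.symm).trans ?_
    rw [mul_sum]
    refine sum_congr rfl fun x _ => ?_
    rw [sum_mul]
    refine sum_congr rfl fun b _ => ?_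
    rw [← mul_prod_erase univ _ (mem_univ i), hg, update_self, prod_congr (s₁ := univ.erase i) rfl
      (g := fun j => 1 / 2 + sg (x j) / 2 * z j) fun j hj => by rw [update_of_ne (ne_of_mem_erase hj)]]
    ring
  have h1 := this sg
  have h2 := this fun _ => 1
  simp only [one_mul, Fintype.sum_bool, sg, if_true, Bool.false_eq_true, if_false] at h1 h2 ⊢
  linear_combination h1 / 2 - z i * h2 / 2

theorem DD_sum {T : Type} [Fintype T] (c : T → ℝ) (f : T → (I → Bool) → ℝ) (z : I → ℝ) :
    DD (fun x => ∑ t, c t * f t x) ∅ z = ∑ t, c t * DD (f t) ∅ z := by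
  simp only [DD, smul_eq_mul, sum_mul, mul_sum, mul_assoc]
  rw [sum_comm]

variable {C : Type} [Fintype C]

/-- the unnormalised amplitudes -/
def SS (H : C → C → ℝ) (y : ℕ → C → R) : ℕ → C → R
  | 0 => fun _ => 1
  | r + 1 => fun α => ∑ a, H α a • (y r a * SS H y r a)

theorem SS_congr (H : C → C → ℝ) {y y' : ℕ → C → R} :
    ∀ r, (∀ r' < r, y r' = y' r') → SS H y r = SS H y' r
  | 0, _ => rfl
  | r + 1, h => by
    simp only [SS, h r (by omega), SS_congr H r fun r' hr => h r' (by omega)]

theorem SS_map {R' : Type} [CommRing R'] [Algebra ℝ R'] (φ : R →ₐ[ℝ] R') (H : C → C → ℝ)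
    (y : ℕ → C → R) : ∀ r α, φ (SS H y r α) = SS H (fun r a => φ (y r a)) r α
  | 0, _ => map_one _
  | r + 1, α => by simp only [SS, map_sum, map_smul, map_mul, SS_map φ H y r]

theorem SS_deriv (δ : Derivation ℝ R R) (H : C → C → ℝ) (y : ℕ → C → R) :
    ∀ r, (∀ r' < r, ∀ a, δ (y r' a) = 0) → ∀ α, δ (SS H y r α) = 0
  | 0, _, _ => δ.map_one_eq_zero
  | r + 1, h, α => by
    simp [SS, h r (by omega), SS_deriv δ H y r fun r' hr => h r' (by omega)]

theorem SS_DD (H : C → C → ℝ) (e : ℕ → C → I) (z : I → ℝ) :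
    ∀ r, (∀ r₁ r₂ a b, r₁ < r₂ → r₂ < r → e r₁ a ≠ e r₂ b) → ∀ α,
      DD (fun x => SS H (fun r a => sg (x (e r a))) r α) ∅ z = SS H (fun r a => z (e r a)) r α
  | 0, _, _ => DD_one z
  | r + 1, h, α => by
    simp only [SS, smul_eq_mul, DD_sum]
    refine sum_congr rfl fun a _ => ?_
    rw [DD_mul, SS_DD H e z r fun _ _ _ _ h1 h2 => h _ _ _ _ h1 (by omega)]
    intro x b
    rw [SS_congr H r (y' := fun r a => sg (x (e r a))) fun r' hr => funext fun a' => by
      rw [update_of_ne (h _ _ _ _ hr (by omega))]]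

/-- even Gaussian moments -/
def mom : ℕ → ℝ
  | 0 => 1
  | q + 1 => (2 * q + 1) * mom q

theorem mom_nonneg : ∀ q, 0 ≤ mom q
  | 0 => zero_le_one
  | q + 1 => mul_nonneg (by positivity) (mom_nonneg q)

theorem mom_prod (L : R →ₗ[ℝ] ℝ) (h1 : L 1 = 1) (Y : I → R) (δ : I → Derivation ℝ R R)
    (hS : ∀ i p, L (Y i * p) = L (δ i p)) (hY : ∀ i j, δ i (Y j) = if i = j then 1 else 0)
    (c : ℝ) (q : ℕ) (S : Finset I) :
    L (∏ i ∈ S, (1 + c • Y i ^ (2 * q))) = (1 + c * mom q) ^ S.card := by
  have hm : ∀ i p, δ i p = 0 → ∀ q, L (Y i ^ (2 * q) * p) = mom q * L p := fun i p hp q => by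
    induction q with
    | zero => simp [mom]
    | succ q ih =>
      rw [mul_add_one, pow_succ', pow_succ', mul_assoc, hS, ← pow_succ']
      simp only [Derivation.leibniz, Derivation.leibniz_pow, hp, hY, if_true, mul_zero, zero_add,
        add_tsub_cancel_right, smul_eq_mul, mul_one, mul_comm p, mom]
      rw [smul_mul_assoc, map_nsmul, ih]
      simp [mul_assoc]
  induction S using Finset.induction_on with
  | empty => simpa using h1
  | insert a S ha ih =>
    rw [prod_insert ha, card_insert_of_notMem ha, add_mul, one_mul, smul_mul_assoc, map_add,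
      map_smul, hm, ih, smul_eq_mul]
    · ring
    · rw [deriv_prod]
      refine sum_eq_zero fun i hi => ?_
      simp [Derivation.leibniz_pow, hY, show a ≠ i by rintro rfl; exact ha hi]

end Crest.Agent.H0554
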