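import Crest.Agent.H0554.Alg
import Crest.Prelude.Def_QueryComplexity

/-! The randomized lower bound, abstractly. -/

set_option autoImplicit false
set_option linter.unusedSectionVars false

namespace Crest.Agent.H0554

open Finset Function Crest.MathPhysics.Query

variable {n : ℕ} {G A : Type} [DecidableEq G] [DecidableEq A]

/-- indicator -/
def ind (b : Bool) : ℝ := if b then 1 else 0

theorem ind_nonneg (b : Bool) : 0 ≤ ind b := by cases b <;> simp [ind]

/-- number of reads in group `g` -/
def cnt (grp : Fin n → G) (g : G) (x : Fin n → Bool) : DTree n → ℕ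
  | .answer _ => 0
  | .read i t₀ t₁ => (if grp i = g then 1 else 0) + if x i then cnt grp g x t₁ else cnt grp g x t₀

/-- a position labelled `α` is among the first `B` reads in group `g` -/
def hit (grp : Fin n → G) (g : G) (lab : Fin n → Option A) (α : A) (x : Fin n → Bool) :
    DTree n → ℕ → Bool
  | .answer _, _ => false
  | .read _ _ _, 0 => false
  | .read i t₀ t₁, B + 1 => if grp i = g then
      (decide (lab i = some α) || if x i then hit grp g lab α x t₁ B else hit grp g lab α x t₀ B)
      else if x i then hit grp g lab α x t₁ (B + 1) else hit grp g lab α x t₀ (B + 1)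

theorem cnt_sum [Fintype G] (grp : Fin n → G) (x : Fin n → Bool) :
    ∀ T : DTree n, ∑ g, cnt grp g x T ≤ T.depth
  | .answer _ => by simp [cnt]
  | .read i t₀ t₁ => by
    have := cnt_sum grp x t₀
    have := cnt_sum grp x t₁
    simp only [cnt, sum_add_distrib, sum_ite_eq, mem_univ, if_true, DTree.depth]
    split_ifs <;> omega

theorem hit_sum [Fintype A] (grp : Fin n → G) (g : G) (lab : Fin n → Option A) (x : Fin n → Bool) :
    ∀ (T : DTree n) (B : ℕ), ∑ α, ind (hit grp g lab α x T B) ≤ B
  | .answer _, B => by simp [hit, ind]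
  | .read _ _ _, 0 => by simp [hit, ind]
  | .read i t₀ t₁, B + 1 => by
    have key : ∀ f : A → Bool, ∑ α, ind (f α) ≤ B →
        ∑ α, ind (decide (lab i = some α) || f α) ≤ (B + 1 : ℕ) := fun f hf => by
      have h1 : ∑ α, ind (decide (lab i = some α)) ≤ 1 := by
        rcases lab i with _ | a <;> simp [ind]
      refine le_trans (sum_le_sum fun α _ => ?_) (sum_add_distrib.le.trans
        ((add_le_add hf h1).trans (by simp)))
      cases decide (lab i = some α) <;> cases f α <;> simp [ind]
    simp only [hit]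
    split_ifs
    exacts [key _ (hit_sum grp g lab x _ _), key _ (hit_sum grp g lab x _ _),
      hit_sum grp g lab x _ _, hit_sum grp g lab x _ _]

theorem hit_dp {J : Type} (grp : Fin n → G) (g : G) (lab : Fin n → Option A) (α : A)
    (Z : (J → Bool) → Fin n → Bool) (hZ : ∀ i, Dp (if grp i = g then 1 else 0) fun y => Z y i) :
    ∀ (T : DTree n) (B : ℕ), Dp B fun y => hit grp g lab α (Z y) T B
  | .answer _, B => Dp.const _ _
  | .read _ _ _, 0 => Dp.const _ _
  | .read i t₀ t₁, B + 1 => by
    have h := hZ i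
    simp only [hit]
    by_cases hg : grp i = g
    · simp only [hg, if_true] at h ⊢
      rw [add_comm]
      exact h.bind (g' := fun v y => (decide (lab i = some α) || if v then
        hit grp g lab α (Z y) t₁ B else hit grp g lab α (Z y) t₀ B)) fun v => by
          cases v
          exacts [(hit_dp grp g lab α Z hZ t₀ B).map _, (hit_dp grp g lab α Z hZ t₁ B).map _]
    · simp only [hg, if_false] at h ⊢
      exact (h.bind (g' := fun v y => if v then hit grp g lab α (Z y) t₁ (B + 1)
        else hit grp g lab α (Z y) t₀ (B + 1)) fun v => by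
          cases v
          exacts [hit_dp grp g lab α Z hZ t₀ _, hit_dp grp g lab α Z hZ t₁ _]).mono (zero_add _).le

theorem disagree {A' : Type} [DecidableEq A'] (grp : Fin n → G) (g : G) (lab : Fin n → Option A)
    (α : A) (lab' : Fin n → Option A') (α' : A') {x₀ x₁ x : Fin n → Bool}
    (h0 : ∀ i, ¬(grp i = g ∧ lab i = some α) → x₀ i = x i)
    (h1 : ∀ i, ¬(grp i = g ∧ lab' i = some α') → x₁ i = x i) :
    ∀ (T : DTree n) (B : ℕ), T.eval x₀ ≠ T.eval x₁ →
      B ≤ cnt grp g x₀ T ∨ hit grp g lab α x T B ∨ hit grp g lab' α' x T B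
  | .answer _, _, h => absurd rfl h
  | .read _ _ _, 0, _ => Or.inl (Nat.zero_le _)
  | .read i t₀ t₁, B + 1, h => by
    by_cases a : grp i = g ∧ lab i = some α
    · simp [hit, a]
    by_cases b : grp i = g ∧ lab' i = some α'
    · simp [hit, b]
    simp only [DTree.eval, h0 i a, h1 i b] at h
    simp only [cnt, hit, h0 i a]
    by_cases hg : grp i = g <;> by_cases hx : x i = true <;>
      simp only [hg, hx, if_true, if_false, Bool.false_eq_true] at h ⊢
    · rcases disagree grp g lab α lab' α' h0 h1 _ B h with h | h | h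
      exacts [Or.inl (by omega), by simp [h], by simp [h]]
    · rcases disagree grp g lab α lab' α' h0 h1 _ B h with h | h | h
      exacts [Or.inl (by omega), by simp [h], by simp [h]]
    · simpa using disagree grp g lab α lab' α' h0 h1 _ (B + 1) h
    · simpa using disagree grp g lab α lab' α' h0 h1 _ (B + 1) h

theorem avg_update {Ω : Type} [Fintype G] [Fintype Ω] (ν : Ω → ℝ) (hν : ∑ b, ν b = 1) (g : G)
    (Φ : (G → Ω) → ℝ) : ∑ ω : G → Ω, (∏ i, ν (ω i)) * Φ ω
      = ∑ ω : G → Ω, (∏ i, ν (ω i)) * ∑ b, ν b * Φ (update ω g b) := by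
  have := swap_sum g fun (ω : G → Ω) b => (∏ i, ν (ω i)) * ν b * Φ ω
  simp only [← sum_mul, ← mul_sum, hν, mul_one] at this
  rw [this]
  refine sum_congr rfl fun ω _ => ?_
  rw [mul_sum]
  refine sum_congr rfl fun b _ => ?_
  simp only [← mul_prod_erase univ _ (mem_univ g), update_self]
  rw [prod_congr rfl fun j hj => by rw [update_of_ne (ne_of_mem_erase hj)]]
  ring

theorem lower {J C : Type} [Fintype G] [Fintype A] [Fintype J] [DecidableEq J] [Fintype C]
    [DecidableEq C] (grp : Fin n → G) (labA : Fin n → Option A) (labC : Fin n → Option C)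
    {F : (Fin n → Bool) → Bool} (Z0 : (G → A × (J → Bool) × C) → Fin n → Bool)
    (Z1 : (G → A × (J → Bool) × C) → G → Fin n → Bool)
    (Zn : (G → A × (J → Bool) × C) → G → (J → Bool) → Fin n → Bool) (w : A → (J → Bool) → ℝ)
    (hF0 : ∀ ω, F (Z0 ω) = false) (hF1 : ∀ ω g, w (ω g).1 (ω g).2.1 ≠ 0 → F (Z1 ω g) = true)
    (h0 : ∀ ω g i, ¬(grp i = g ∧ labC i = some (ω g).2.2) → Z0 ω i = Zn ω g (ω g).2.1 i)
    (h1 : ∀ ω g i, ¬(grp i = g ∧ labA i = some (ω g).1) → Z1 ω g i = Zn ω g (ω g).2.1 i)
    (hn : ∀ ω g b, Zn (update ω g b) g = Zn ω g)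
    (hd : ∀ ω g i, Dp (if grp i = g then 1 else 0) fun y => Zn ω g y i)
    {B : ℕ} (w0 : ∀ α y, 0 ≤ w α y) (wP : 0 < ∑ α, ∑ y, w α y)
    (hw : ∀ f : A → (J → Bool) → Bool, (∀ α, Dp B (f α)) → (∀ y, ∑ α, ind (f α y) ≤ B) →
      12 * ∑ α, ∑ y, w α y * ind (f α y) ≤ ∑ α, ∑ y, w α y)
    (hB : 12 * B ≤ Fintype.card C) (hC : 0 < Fintype.card C) {r : ℕ} (h : RandomizedComputes F r) :
    (B : ℝ) * Fintype.card G ≤ 6 * r := by
  obtain ⟨s, p, T, p0, p1, hT, hp⟩ := h
  set P := ∑ α, ∑ y, w α y with hP
  have C0 : (0 : ℝ) < Fintype.card C := by exact_mod_cast hC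
  let ν : A × (J → Bool) × C → ℝ := fun b => w b.1 b.2.1 / (P * Fintype.card C)
  have ν0 : ∀ b, 0 ≤ ν b := fun b => div_nonneg (w0 _ _) (by positivity)
  have ν1 : ∑ b, ν b = 1 := by
    simp only [ν, Fintype.sum_prod_type, sum_const, card_univ, nsmul_eq_mul, ← mul_sum, ← sum_div,
      ← hP]
    field_simp
  let W : (G → A × (J → Bool) × C) → ℝ := fun ω => ∏ i, ν (ω i)
  have W0 : ∀ ω, 0 ≤ W ω := fun ω => prod_nonneg fun i _ => ν0 _
  have W1 : ∑ ω, W ω = 1 := by
    simp only [W]
    rw [← Fintype.piFinset_univ, ← prod_univ_sum (fun _ => univ) fun _ b => ν b]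
    simp [ν1]
  let a : Fin s → _ → G → ℝ := fun j ω g => ind (hit grp g labA (ω g).1 (Zn ω g (ω g).2.1) (T j) B)
  let c : Fin s → _ → G → ℝ := fun j ω g =>
    ind (hit grp g labC (ω g).2.2 (Zn ω g (ω g).2.1) (T j) B)
  have ha : ∀ j g, ∑ ω, W ω * a j ω g ≤ 1 / 12 := fun j g => by
    rw [avg_update ν ν1 g, show (1 / 12 : ℝ) = ∑ ω, W ω * (1 / 12) by rw [← sum_mul, W1, one_mul]]
    refine sum_le_sum fun ω _ => mul_le_mul_of_nonneg_left ?_ (W0 ω)
    have := hw (fun α y => hit grp g labA α (Zn ω g y) (T j) B)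
      (fun α => hit_dp _ _ _ _ _ (hd ω g) _ _) fun y => hit_sum _ _ _ _ _ _
    simp only [a, ν, hn, update_self, Fintype.sum_prod_type, sum_const, card_univ, nsmul_eq_mul,
      ← mul_sum, div_mul_eq_mul_div, ← sum_div]
    rw [div_le_iff₀ (by positivity)]
    nlinarith
  have hc : ∀ j g, ∑ ω, W ω * c j ω g ≤ 1 / 12 := fun j g => by
    rw [avg_update ν ν1 g, show (1 / 12 : ℝ) = ∑ ω, W ω * (1 / 12) by rw [← sum_mul, W1, one_mul]]
    refine sum_le_sum fun ω _ => mul_le_mul_of_nonneg_left ?_ (W0 ω)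
    simp only [c, ν, hn, update_self, Fintype.sum_prod_type, ← mul_sum]
    calc _ ≤ ∑ α, ∑ y, w α y / (P * Fintype.card C) * B :=
          sum_le_sum fun α _ => sum_le_sum fun y _ => mul_le_mul_of_nonneg_left
            (hit_sum _ _ _ _ _ _) (div_nonneg (w0 _ _) (by positivity))
      _ ≤ _ := by
          simp only [← sum_mul, ← sum_div, ← hP]
          have : (12 * B : ℝ) ≤ Fintype.card C := by exact_mod_cast hB
          rw [div_mul_eq_mul_div, div_le_iff₀ (by positivity)]
          nlinarith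
  have key : ∀ ω g, W ω * (B / 3) ≤ ∑ j, p j * (W ω * cnt grp g (Z0 ω) (T j)
      + B * (W ω * a j ω g + W ω * c j ω g)) := fun ω g => by
    simp only [← mul_add, mul_left_comm _ (W ω), ← mul_sum]
    rcases eq_or_ne (w (ω g).1 (ω g).2.1) 0 with h | h
    · have : W ω = 0 := prod_eq_zero (mem_univ g) (by simp [ν, h])
      simp [this]
    refine mul_le_mul_of_nonneg_left ?_ (W0 ω)
    have e0 := hp (Z0 ω)
    have e1 := hp (Z1 ω g)
    rw [hF0] at e0
    rw [hF1 ω g h] at e1
    have B0 : (0 : ℝ) ≤ B := by positivity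
    calc _ ≤ B * (∑ j, (if (T j).eval (Z0 ω) = false then p j else 0)
          + ∑ j, (if (T j).eval (Z1 ω g) = true then p j else 0) - ∑ j, p j) := by
          rw [p1]; nlinarith
      _ ≤ _ := by
          rw [← sum_add_distrib, ← sum_sub_distrib, mul_sum]
          refine sum_le_sum fun j _ => ?_
          have := p0 j
          have a0 : 0 ≤ a j ω g := ind_nonneg _
          have c0 : 0 ≤ c j ω g := ind_nonneg _
          have k0 : (0 : ℝ) ≤ cnt grp g (Z0 ω) (T j) := by positivity
          by_cases hj : (T j).eval (Z0 ω) = (T j).eval (Z1 ω g)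
          · rw [hj]
            refine le_trans (le_of_eq ?_) (by positivity)
            cases (T j).eval (Z1 ω g) <;> simp
          · have : (B : ℝ) ≤ cnt grp g (Z0 ω) (T j) + B * (a j ω g + c j ω g) := by
              rcases disagree grp g labC _ labA _ (h0 ω g) (h1 ω g) _ B hj with h | h | h
              · have : (B : ℝ) ≤ cnt grp g (Z0 ω) (T j) := by exact_mod_cast h
                nlinarith
              · have : c j ω g = 1 := if_pos h
                nlinarith
              · have : a j ω g = 1 := if_pos h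
                nlinarith
            calc _ ≤ B * p j := by gcongr; split_ifs <;> linarith
              _ ≤ _ := by rw [mul_comm]; gcongr
  have fin := sum_le_sum fun g (_ : g ∈ univ) => sum_le_sum fun ω (_ : ω ∈ univ) => key ω g
  have e2 : ∑ g, ∑ ω, ∑ j, p j * (W ω * cnt grp g (Z0 ω) (T j)
      + B * (W ω * a j ω g + W ω * c j ω g)) ≤ ∑ j, p j * (r + B * (Fintype.card G / 6)) := by
    simp only [sum_comm (s := (univ : Finset (G → _))) (t := (univ : Finset (Fin s)))]
    rw [sum_comm]
    refine sum_le_sum fun j _ => ?_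
    simp only [← mul_sum, sum_add_distrib]
    gcongr
    · exact p0 j
    · rw [sum_comm, ← one_mul (r : ℝ), ← W1, sum_mul]
      refine sum_le_sum fun ω _ => ?_
      rw [← mul_sum]
      refine mul_le_mul_of_nonneg_left ?_ (W0 ω)
      exact_mod_cast (cnt_sum grp _ _).trans (hT j)
    · refine (add_le_add (sum_le_sum fun g _ => ha j g) (sum_le_sum fun g _ => hc j g)).trans ?_
      simp; linarith
  simp only [← sum_mul, W1, p1, one_mul, sum_const, card_univ, nsmul_eq_mul] at fin e2
  linarith

end Crest.Agent.H0554
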