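import Crest.Agent.H0554.Rep

/-! The tournament search as a dual adversary solution. -/

set_option autoImplicit false
set_option linter.unusedSectionVars false

namespace Crest.Agent.H0554

open Finset
open scoped Classical

variable {I Cell G Chk : Type} [Fintype I] [DecidableEq I] [Fintype Cell] [Fintype Chk]

/-- the vector `Ψ` can be prepared at cost `C` -/
def Smp (Ψ : (I → Bool) → Cell → ℝ) (C M : ℝ) : Prop :=
  ∀ (X Y : Type) (ex : X → I → Bool) (ey : Y → I → Bool) (s : X → Cell → ℝ),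
    Rep ex ey (fun x y => ∑ c, s x c * (Ψ (ex x) c - Ψ (ey y) c))
      (fun x => C * ∑ c, s x c ^ 2) (fun _ => C * M)

theorem Smp.filter {Ψ : (I → Bool) → Cell → ℝ} {C M : ℝ} (hS : Smp Ψ C M)
    (htot : ∀ z, ∑ c, Ψ z c ^ 2 ≤ M) {A : (I → Bool) → Cell → Prop} {d : ℕ}
    (hA : ∀ c, Dp d fun z => A z c) {X Y : Type} (ex : X → I → Bool) (ey : Y → I → Bool)
    (s : X → Cell → ℝ) (hs : ∀ x c, ¬ A (ex x) c → s x c = 0) :
    Rep ex ey (fun x y => ∑ c, s x c * (Ψ (ex x) c - if A (ey y) c then Ψ (ey y) c else 0))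
      (fun x => (C + d) * ∑ c, s x c ^ 2) (fun _ => (C + d) * M) := by
  choose K hK hK1 using fun c => (hA c).rep ex ey
  refine ((hS X Y ex ey s).add (Rep.sum fun c => (hK c).mul (fun x => s x c)
    fun y => if A (ey y) c then 0 else Ψ (ey y) c)).of (fun x y => ?_) (fun x => ?_) fun y => ?_
  · rw [← sum_add_distrib]
    refine sum_congr rfl fun c _ => ?_
    by_cases h : A (ey y) c
    · simp [h]
    by_cases h' : A (ex x) c
    · rw [hK1 c x y (by simp [h, h'])]; simp [h]; ring
    · simp [hs x c h']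
  · rw [← sum_mul]; exact le_of_eq (by ring)
  · rw [← sum_mul, add_mul, mul_comm (d : ℝ)]
    gcongr
    refine le_trans (sum_le_sum fun c _ => ?_) (htot (ey y))
    split_ifs
    · simpa using sq_nonneg _
    · rfl

variable (grp : Cell → G) (beats : (I → Bool) → Cell → G → Prop)

/-- `c'` survives the comparison with `c` -/
def surv (z : I → Bool) (c' c : Cell) : Prop :=
  grp c' = grp c ∨ (beats z c' (grp c) ∧ ¬ beats z c (grp c'))

/-- survivors of a history -/
def alive (h : List Cell) (z : I → Bool) (c' : Cell) : Prop := ∀ c ∈ h, surv grp beats z c' c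

/-- the filtered vector -/
noncomputable def flt (Ψ : (I → Bool) → Cell → ℝ) (h : List Cell) (z : I → Bool) (c : Cell) : ℝ :=
  if alive grp beats h z c then Ψ z c else 0

variable {grp beats}

theorem alive_dp {q : ℕ} (hb : ∀ c g, Dp q fun z => beats z c g) (c' : Cell) :
    ∀ h : List Cell, Dp (2 * q * h.length) fun z => alive grp beats h z c'
  | [] => (Dp.const _ True).congr fun z => by simp [alive]
  | c :: h => by
    refine (((hb c' (grp c)).map2 (hb c (grp c')) fun a b => grp c' = grp c ∨ (a ∧ ¬ b)).map2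
      (alive_dp hb c' h) And).mono (le_of_eq (by simp; ring)) |>.congr fun z => ?_
    simp [alive, surv]

theorem halve {Ψ : (I → Bool) → Cell → ℝ}
    (hmass : ∀ z g, ∑ c, (if grp c = g then Ψ z c ^ 2 else 0) ≤ 1) (h : List Cell) (z : I → Bool) :
    2 * ∑ c, flt grp beats Ψ h z c ^ 2 * ∑ c', flt grp beats Ψ (c :: h) z c' ^ 2
      ≤ (∑ c, flt grp beats Ψ h z c ^ 2) * (∑ c, flt grp beats Ψ h z c ^ 2 + 1) := by
  set w : Cell → ℝ := fun c => flt grp beats Ψ h z c ^ 2
  have w0 : ∀ c, 0 ≤ w c := fun c => sq_nonneg _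
  have e1 : ∀ c c', flt grp beats Ψ (c :: h) z c' ^ 2 = if surv grp beats z c' c then w c' else 0 :=
    fun c c' => by
      simp only [w, flt, alive, List.forall_mem_cons]
      by_cases h1 : surv grp beats z c' c <;> simp [h1]
  have e2 : ∑ c, w c * ∑ c', (if surv grp beats z c' c then w c' else 0)
      = ∑ c, w c * ∑ c', (if surv grp beats z c c' then w c' else 0) := by
    simp only [mul_sum]
    rw [sum_comm]
    exact sum_congr rfl fun c _ => sum_congr rfl fun c' _ => by split_ifs <;> ring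
  change 2 * ∑ c, w c * _ ≤ (∑ c, w c) * (∑ c, w c + 1)
  simp only [e1]
  rw [two_mul]
  nth_rewrite 1 [e2]
  rw [← sum_add_distrib, sum_mul]
  refine sum_le_sum fun c _ => ?_
  rw [← mul_add, ← sum_add_distrib]
  refine mul_le_mul_of_nonneg_left ?_ (w0 c)
  refine le_trans ?_ (add_le_add_right (hmass z (grp c)) _)
  rw [← sum_add_distrib]
  refine sum_le_sum fun c' _ => ?_
  have : w c' ≤ Ψ z c' ^ 2 := by
    simp only [w, flt]; split_ifs; exacts [le_rfl, by simpa using sq_nonneg _]
  have := w0 c'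
  by_cases hg : grp c' = grp c
  · simp only [hg, if_true]; split_ifs <;> linarith
  · simp only [surv, hg, Ne.symm hg, false_or, if_false]
    split_ifs with h1 h2
    · exact absurd h1.1 h2.2
    all_goals linarith

theorem tour {Ψ : (I → Bool) → Cell → ℝ} {chk : (I → Bool) → Cell → Chk → Prop} {q R : ℕ}
    {C θ M D Λ : ℝ} (hmass : ∀ z g, ∑ c, (if grp c = g then Ψ z c ^ 2 else 0) ≤ 1)
    (hS : Smp Ψ C M) (htot : ∀ z, ∑ c, Ψ z c ^ 2 ≤ M) (hb : ∀ c g, Dp q fun z => beats z c g)
    (hc : ∀ c t, Dp q fun z => chk z c t)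
    (hv : ∀ z c, (∀ t, chk z c t) → θ ≤ Ψ z c ∧ ∀ c', surv grp beats z c c')
    {X Y : Type} [Fintype X] [Fintype Y] (ex : X → I → Bool) (ey : Y → I → Bool)
    (hX : ∀ x, ∃ c, ∀ t, chk (ex x) c t) (hY : ∀ y c, ∃ t, ¬ chk (ey y) c t)
    (hθ : 0 < θ) (hθ1 : θ ≤ 1) (hR : 1 ≤ R) (hM : M ≤ 2 ^ R) (hC : 0 ≤ C) (hD : C + 2 * q * R ≤ D)
    (hΛ : 1 ≤ Λ) (hΛM : 2 * R * M ≤ θ ^ 2 * Λ ^ 2) (hΛL : Fintype.card Chk ≤ Λ ^ 2) :
    Rep ex ey (fun _ _ => 1) (fun _ => 2 * (R + 2) * D * Λ / θ ^ 2)
      (fun _ => 2 * (R + 2) * D * Λ / θ ^ 2) := by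
  choose cs hcs using hX
  choose ts hts using hY
  have R1 : (1 : ℝ) ≤ R := by exact_mod_cast hR
  have q0 : (0 : ℝ) ≤ q := by positivity
  have hq : (q : ℝ) ≤ D := by nlinarith
  have D0 : 0 ≤ D := q0.trans hq
  have Λ0 : 0 < Λ := by linarith
  have θ2 : 0 < θ ^ 2 := by positivity
  have θ3 : θ ^ 2 ≤ 1 := by nlinarith
  have M0 : 0 ≤ M := le_trans (by positivity) (htot fun _ => false)
  set κ := θ ^ 2 / (2 * R) with hκ
  have κ0 : 0 < κ := by positivity
  have hκM : M ≤ κ * Λ ^ 2 := by
    rw [hκ, div_mul_eq_mul_div, le_div_iff₀ (by positivity)]; linarith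
  have κ1 : κ ≤ θ ^ 2 / 2 := by rw [hκ]; gcongr; linarith
  set β := 1 - 1 / (2 * R : ℝ) with hβ
  have β0 : 1 / 2 ≤ β := by
    have : 1 / (2 * R : ℝ) ≤ 1 / 2 := by gcongr; linarith
    linarith
  have β1 : β ≤ 1 := by rw [hβ]; exact sub_le_self _ (by positivity)
  let p : List Cell → (I → Bool) → ℝ := fun h z => ∑ c, flt grp beats Ψ h z c ^ 2
  have p0 : ∀ h z, 0 ≤ p h z := fun h z => by positivity
  have hal : ∀ h x, flt grp beats Ψ h (ex x) (cs x) = Ψ (ex x) (cs x) := fun h x =>
    if_pos fun c _ => (hv _ _ (hcs x)).2 c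
  have hp : ∀ h x, θ ^ 2 ≤ p h (ex x) := fun h x =>
    le_trans (by rw [hal]; exact pow_le_pow_left₀ hθ.le (hv _ _ (hcs x)).1 2)
      (single_le_sum (f := fun c => flt grp beats Ψ h (ex x) c ^ 2) (fun c _ => sq_nonneg _)
        (mem_univ (cs x)))
  have hF : ∀ h : List Cell, h.length ≤ R → ∀ {X Y : Type} (ex : X → I → Bool) (ey : Y → I → Bool)
      (s : X → Cell → ℝ), (∀ x c, ¬ alive grp beats h (ex x) c → s x c = 0) →
      Rep ex ey (fun x y => ∑ c, s x c * (Ψ (ex x) c - flt grp beats Ψ h (ey y) c))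
        (fun x => D * Λ * ∑ c, s x c ^ 2) (fun _ => D * Λ * κ) := by
    intro h hh X Y ex ey s hs
    have h1 : C + (2 * q * h.length : ℕ) ≤ D := by
      have : (h.length : ℝ) ≤ R := by exact_mod_cast hh
      push_cast; nlinarith
    refine ((hS.filter htot (alive_dp hb · h) ex ey s hs).scale Λ0).of (fun _ _ => rfl)
      (fun x => ?_) fun y => ?_
    · rw [← mul_assoc, mul_comm Λ]; gcongr
    · rw [div_le_iff₀ Λ0]
      calc _ ≤ D * (κ * Λ ^ 2) := by gcongr
        _ = _ := by ring
  have key : ∀ r (h : List Cell), h.length + r = R → Rep ex ey (fun _ _ => 1)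
      (fun _ => (r + 2 / θ ^ 2) * (D * Λ) / β ^ r)
      (fun y => (r + 2 + (p h (ey y) - 1) / 2 ^ r) * (D * Λ)) := by
    intro r
    induction r with
    | zero =>
      intro h hh
      choose K hK hK1 using fun c t => (hc c t).rep ex ey
      have h1 := hF h (by omega) ex ey (fun x c => if c = cs x then 1 else 0) fun x c hc' =>
        if_neg (by rintro rfl; exact hc' fun c _ => (hv _ _ (hcs x)).2 c)
      have h2 := Rep.sum fun c => ((Rep.sum fun t => (hK c t).mul (fun _ => 1)
        (fun y => if t = ts y c then 1 else 0)).scale (inv_pos.2 Λ0)).mul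
        (fun x => if c = cs x then 1 else 0) fun y => flt grp beats Ψ h (ey y) c
      refine ((h1.add h2).mul (fun x => (Ψ (ex x) (cs x))⁻¹) fun _ => 1).of (fun x y => ?_)
        (fun x => ?_) fun y => ?_
      · have := (hθ.trans_le (hv _ _ (hcs x)).1).ne'
        simp [hK1 (cs x) (ts y (cs x)) x y (by simp [hcs x, hts y]), this]
      · have h3 : (Ψ (ex x) (cs x))⁻¹ ^ 2 ≤ (θ ^ 2)⁻¹ := by
          rw [inv_pow]; gcongr; exact (hv _ _ (hcs x)).1
        have h4 : Λ⁻¹ * (Fintype.card Chk * q) ≤ D * Λ := by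
          rw [inv_mul_le_iff₀ Λ0]
          calc _ ≤ Λ ^ 2 * D := by gcongr
            _ = _ := by ring
        simp only [ite_pow, one_pow, ne_eq, OfNat.ofNat_ne_zero, not_false_eq_true, zero_pow,
          sum_ite_eq', mem_univ, if_true, ite_mul, one_mul, zero_mul, sum_const, card_univ,
          nsmul_eq_mul, mul_one, Nat.cast_zero, zero_add, pow_zero, div_one]
        calc _ ≤ (θ ^ 2)⁻¹ * (D * Λ + D * Λ) := by gcongr
          _ = _ := by ring
      · simp only [ite_pow, one_pow, ne_eq, OfNat.ofNat_ne_zero, not_false_eq_true, zero_pow,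
          sum_ite_eq', mem_univ, if_true, ite_mul, one_mul, zero_mul, div_inv_eq_mul, ← sum_mul,
          Nat.cast_zero, zero_add, pow_zero, div_one]
        have := p0 h (ey y)
        calc _ ≤ D * Λ * 1 + p h (ey y) * (D * Λ) := by
              gcongr; linarith
          _ = _ := by ring
    | succ r ih =>
      intro h hh
      have h1 := hF h (by omega) ex ey (fun x => flt grp beats Ψ h (ex x)) fun x c hc' => if_neg hc'
      have h2 := (hF h (by omega) ey ex (fun x => flt grp beats Ψ h (ey x))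
        fun x c hc' => if_neg hc').flip
      have h3 := Rep.sum fun c => (ih (c :: h) (by simp; omega)).mul
        (fun x => √2 * flt grp beats Ψ h (ex x) c) fun y => √2 * flt grp beats Ψ h (ey y) c
      have e : ∀ z c, flt grp beats Ψ h z c * Ψ z c = flt grp beats Ψ h z c ^ 2 := fun z c => by
        simp only [flt]; split_ifs <;> ring
      have hpx : ∀ x, β * p h (ex x) ≤ p h (ex x) - κ := fun x => by
        have : κ ≤ p h (ex x) / (2 * R) := by rw [hκ]; gcongr; exact hp h x
        rw [hβ, sub_mul, one_mul, one_div, inv_mul_eq_div]; linarith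
      have hpx' : ∀ x, 0 < p h (ex x) - κ := fun x => by have := hp h x; linarith
      have βr : 0 < β ^ r := by positivity
      have βr1 : β ^ r ≤ 1 := pow_le_one₀ (by linarith) β1
      refine (((h1.add h2).add h3).cauchy (fun x => p h (ex x) - κ) (fun y => p h (ey y) + κ)
        hpx' fun y => by have := p0 h (ey y); linarith).of (fun x y => ?_) (fun x => ?_) fun y => ?_
      · rw [eq_div_iff (by have := p0 h (ey y); have := hpx' x; linarith)]
        have : ∀ a b : ℝ, √2 * a * (√2 * b) = 2 * (a * b) := fun a b => by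
          rw [mul_mul_mul_comm, Real.mul_self_sqrt zero_le_two]
        simp only [mul_sub, e, sum_sub_distrib, this, mul_one, ← mul_sum,
          mul_comm (flt grp beats Ψ h (ey y) _) (flt grp beats Ψ h (ex x) _), p]
        ring
      · simp only [mul_pow, Real.sq_sqrt zero_le_two, ← sum_mul, ← mul_sum]
        have := hp h x
        have DΛ : 0 ≤ D * Λ := by positivity
        rw [div_le_iff₀ (by have := hpx' x; positivity)]
        change D * Λ * p h (ex x) + _ + 2 * p h (ex x) * _ ≤ _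
        have e1 : D * Λ * p h (ex x) + D * Λ * κ ≤ 2 * p h (ex x) * (D * Λ / β ^ r) := by
          have : D * Λ ≤ D * Λ / β ^ r := le_div_self DΛ βr βr1
          calc _ ≤ D * Λ * p h (ex x) + D * Λ * p h (ex x) := by gcongr; linarith
            _ = 2 * p h (ex x) * (D * Λ) := by ring
            _ ≤ _ := by gcongr
        calc _ ≤ 2 * p h (ex x) * (D * Λ / β ^ r)
              + 2 * p h (ex x) * ((r + 2 / θ ^ 2) * (D * Λ) / β ^ r) := by gcongr
          _ = ((r + 1 : ℕ) + 2 / θ ^ 2) * (D * Λ) / β ^ (r + 1) * (2 * (β * p h (ex x))) := by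
            have : β ≠ 0 := by linarith
            push_cast; field_simp; ring
          _ ≤ _ := by gcongr; exact hpx x
      · have DΛ : 0 ≤ D * Λ := by positivity
        have h4 := halve (beats := beats) hmass h (ey y)
        have h5 := p0 h (ey y)
        rw [div_le_iff₀ (by positivity)]
        simp only [mul_pow, Real.sq_sqrt zero_le_two]
        change D * Λ * κ + D * Λ * p h (ey y) + _ ≤ _
        change 2 * ∑ c, flt grp beats Ψ h (ey y) c ^ 2 * p (c :: h) (ey y)
          ≤ p h (ey y) * (p h (ey y) + 1) at h4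
        have e1 : ∑ c, 2 * flt grp beats Ψ h (ey y) c ^ 2 *
            ((r + 2 + (p (c :: h) (ey y) - 1) / 2 ^ r) * (D * Λ))
            = (2 * p h (ey y) * (r + 2 - 1 / 2 ^ r) + (2 * ∑ c, flt grp beats Ψ h (ey y) c ^ 2
              * p (c :: h) (ey y)) / 2 ^ r) * (D * Λ) := by
          simp only [p, mul_sum (s := univ) (a := (2 : ℝ)), sum_mul, sum_div, ← sum_add_distrib]
          exact sum_congr rfl fun c _ => by ring
        have e2 : 0 ≤ r + 2 + (p h (ey y) - 1) / 2 ^ (r + 1) := by
          have : (-1 : ℝ) ≤ (p h (ey y) - 1) / 2 ^ (r + 1) := by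
            rw [le_div_iff₀ (by positivity)]
            have : (1 : ℝ) ≤ 2 ^ (r + 1) := one_le_pow₀ one_le_two
            linarith
          have : (0 : ℝ) ≤ r := by positivity
          linarith
        rw [e1]
        calc _ ≤ D * Λ * κ + D * Λ * p h (ey y) + (2 * p h (ey y) * (r + 2 - 1 / 2 ^ r)
              + p h (ey y) * (p h (ey y) + 1) / 2 ^ r) * (D * Λ) := by gcongr
          _ = D * Λ * (κ + p h (ey y)) + (r + 2 + (p h (ey y) - 1) / 2 ^ (r + 1)) * (D * Λ)
              * (2 * p h (ey y)) := by ring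
          _ ≤ D * Λ * (2 * (p h (ey y) + κ)) + (r + 2 + (p h (ey y) - 1) / 2 ^ (r + 1)) * (D * Λ)
              * (2 * (p h (ey y) + κ)) := by gcongr <;> linarith
          _ = _ := by push_cast; ring
  have hβR : 1 / 2 ≤ β ^ R := by
    have := one_add_mul_le_pow (a := -(1 / (2 * R : ℝ))) (by linarith) R
    rw [← sub_eq_add_neg 1] at this
    refine le_trans (le_of_eq ?_) this
    field_simp; ring
  have h1θ : 1 ≤ 1 / θ ^ 2 := by rw [le_div_iff₀ θ2]; linarith
  refine (key R [] (by simp)).of (fun _ _ => rfl) (fun x => ?_) fun y => ?_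
  · calc _ ≤ (R * (1 / θ ^ 2) + 2 / θ ^ 2) * (D * Λ) / (1 / 2) := by
          gcongr; nlinarith
      _ = _ := by ring
  · have : p [] (ey y) ≤ M := by simpa [p, flt, alive] using htot (ey y)
    have : (p [] (ey y) - 1) / 2 ^ R ≤ 1 := by rw [div_le_one (by positivity)]; linarith
    calc _ ≤ (2 * (R + 2) * (1 / θ ^ 2)) * (D * Λ) := by
          gcongr; nlinarith
      _ = _ := by ring

end Crest.Agent.H0554
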