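import Crest.Agent.H0554.Chain
import Crest.Agent.H0554.Lower
import Crest.Agent.H0554.Tour

/-! Amplitudes, weights, the Hadamard matrix and its butterfly network. -/

set_option autoImplicit false
set_option linter.unusedSectionVars false

namespace Crest.Agent.H0554

open Finset Function

theorem weights {A J : Type} [Fintype A] [Fintype J] [DecidableEq J] (hA : 0 < Fintype.card A)
    (μ Φ : A → (J → Bool) → ℝ) (μ0 : (J → Bool) → ℝ) {Λ γ η : ℝ} {B : ℕ} (h1 : ∀ α, ∑ x, μ α x = 1)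
    (h2 : ∀ α, ∑ x, |μ α x| ≤ Λ) (h3 : ∑ x, |μ0 x| ≤ Λ) (h4 : ∀ α, ∑ x, μ α x * Φ α x = γ)
    (hΦ : ∀ α x, |Φ α x| ≤ 1)
    (h5 : ∀ g, Dp B g → ∀ α, |∑ x, μ α x * ind (g x) - ∑ x, μ0 x * ind (g x)| ≤ η)
    (γ0 : 0 < γ) (γ1 : γ ≤ 1) (hΛ : Λ ≤ 1 + γ / 144) (hη : η ≤ γ / 144)
    (hB : 288 * B ≤ γ * Fintype.card A) :
    ∃ w : A → (J → Bool) → ℝ, (∀ α y, 0 ≤ w α y) ∧ (∀ α y, w α y ≠ 0 → γ / 4 ≤ Φ α y) ∧
      0 < ∑ α, ∑ y, w α y ∧
      ∀ f : A → (J → Bool) → Bool, (∀ α, Dp B (f α)) → (∀ y, ∑ α, ind (f α y) ≤ B) →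
        12 * ∑ α, ∑ y, w α y * ind (f α y) ≤ ∑ α, ∑ y, w α y := by
  classical
  let w : A → (J → Bool) → ℝ := fun α y => if γ / 4 ≤ Φ α y then max (μ α y) 0 else 0
  have hP : ∀ α, γ / 4 ≤ ∑ y, w α y := fun α => by
    have : ∑ x, μ α x * Φ α x ≤ ∑ x, (w α x + γ / 4 * |μ α x| + (|μ α x| - μ α x)) :=
      sum_le_sum fun x _ => by
        have := abs_le.1 (hΦ α x)
        simp only [w]
        rcases le_total 0 (μ α x) with h | h
        · rw [abs_of_nonneg h, max_eq_left h]; split_ifs <;> nlinarith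
        · rw [abs_of_nonpos h, max_eq_right h, ite_self]; nlinarith
    simp only [sum_add_distrib, sum_sub_distrib, ← mul_sum, h1, h4] at this
    have := h2 α
    nlinarith
  have hP' : Fintype.card A * (γ / 4) ≤ ∑ α, ∑ y, w α y := by
    simpa using sum_le_sum fun α (_ : α ∈ univ) => hP α
  have A0 : (0 : ℝ) < Fintype.card A := by exact_mod_cast hA
  refine ⟨w, fun α y => by simp only [w]; split_ifs <;> simp, fun α y h => by
    by_contra h'; exact h (if_neg h'), lt_of_lt_of_le (by positivity) hP', fun f hf hf' => ?_⟩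
  have e1 : ∀ α, ∑ y, w α y * ind (f α y) ≤ ∑ y, μ0 y * ind (f α y) + γ / 72 := fun α => by
    have : ∑ y, w α y * ind (f α y) ≤ ∑ y, (μ α y * ind (f α y) + (|μ α y| - μ α y)) :=
      sum_le_sum fun y _ => by
        have := le_abs_self (μ α y)
        have := neg_abs_le (μ α y)
        have : w α y ≤ |μ α y| := by simp only [w]; split_ifs <;> simp [*]
        cases f α y <;> simp [ind, *]
    simp only [sum_add_distrib, sum_sub_distrib, h1] at this
    have := (abs_le.1 (h5 _ (hf α) α)).2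
    have := h2 α
    linarith
  have e2 : ∑ α, ∑ y, μ0 y * ind (f α y) ≤ 2 * B := by
    rw [sum_comm]
    calc _ ≤ ∑ y, |μ0 y| * B := sum_le_sum fun y _ => by
          rw [← mul_sum]
          exact (mul_le_mul_of_nonneg_right (le_abs_self _)
            (sum_nonneg fun _ _ => ind_nonneg _)).trans (by gcongr; exact hf' y)
      _ ≤ _ := by rw [← sum_mul]; gcongr; linarith
  have e3 := sum_le_sum fun α (_ : α ∈ univ) => e1 α
  simp only [sum_add_distrib, sum_const, card_univ, nsmul_eq_mul] at e3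
  linarith

variable {C : Type} [Fintype C] [DecidableEq C] {H : C → C → ℝ} {h : ℝ}

theorem Had.orth_sq (hH : Had H h) (v : C → ℝ) :
    ∑ a, (∑ α, v α * (h * H α a)) ^ 2 = ∑ α, v α ^ 2 := by
  have : ∀ a, (∑ α, v α * (h * H α a)) ^ 2
      = ∑ α, ∑ β, v α * v β * (h * h) * (H α a * H β a) := fun a => by
    rw [_root_.sq, sum_mul_sum]
    exact sum_congr rfl fun _ _ => sum_congr rfl fun _ _ => by ring
  simp only [this]
  rw [sum_comm]
  refine sum_congr rfl fun α _ => ?_
  rw [sum_comm]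
  simp only [← mul_sum, hH.orth, mul_ite, mul_zero, sum_ite_eq, mem_univ, if_true]
  rw [mul_assoc, hH.norm, mul_one, _root_.sq]

theorem Had.mass (hH : Had H h) (hs : ∀ a b, H a b = H b a) (y : ℕ → C → Bool) :
    ∀ r, ∑ α, (h ^ (r + 1) * SS H (fun r a => sg (y r a)) r α) ^ 2 = 1
  | 0 => by
    have := hH.norm
    simp [SS]; linarith
  | r + 1 => by
    rw [← Had.mass hH hs y r]
    have := hH.orth_sq fun a => sg (y r a) * (h ^ (r + 1) * SS H (fun r a => sg (y r a)) r a)
    simp only [mul_pow (sg _), sg_sq, one_mul] at this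
    rw [← this]
    refine sum_congr rfl fun α _ => ?_
    simp only [SS, smul_eq_mul, mul_sum]
    congr 1
    exact sum_congr rfl fun a _ => by rw [hs a]; ring

theorem Had.smp (hH : Had H h) (hs : ∀ a b, H a b = H b a) {I G : Type} [Fintype I] [DecidableEq I]
    [Fintype G] (e : G → ℕ → C → I) : ∀ r : ℕ, Smp (fun (z : I → Bool) (c : G × C) =>
      h ^ (r + 1) * SS H (fun r a => sg (z (e c.1 r a))) r c.2) (4 * r) (Fintype.card G)
  | 0 => fun X Y ex ey s => Rep.zero.of (by simp [SS]) (by simp) (by simp)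
  | r + 1 => fun X Y ex ey s => by
    let s' : X → G × C → ℝ := fun x c => sg (ex x (e c.1 r c.2)) * ∑ α, s x (c.1, α) * (h * H α c.2)
    have hs' : ∀ x, ∑ c, s' x c ^ 2 = ∑ c, s x c ^ 2 := fun x => by
      simp only [s', Fintype.sum_prod_type, mul_pow, sg_sq, one_mul, hH.orth_sq]
    refine ((Had.smp hH hs e r X Y ex ey s').add (Rep.sum fun c : G × C =>
      (Rep.bit (e c.1 r c.2)).mul (fun x => 2 * s' x c)
        fun y => h ^ (r + 1) * SS H (fun r a => sg (ey y (e c.1 r a))) r c.2)).of (fun x y => ?_)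
      (fun x => ?_) fun y => ?_
    · simp only [← sum_add_distrib, Fintype.sum_prod_type, SS, smul_eq_mul, mul_sum, s', sum_mul,
        ← sum_sub_distrib]
      refine sum_congr rfl fun g _ => ?_
      rw [sum_comm]
      refine sum_congr rfl fun a _ => sum_congr rfl fun α _ => ?_
      cases ex x (e g r a) <;> cases ey y (e g r a) <;> simp [sg] <;> ring
    · simp only [mul_pow, mul_one, ← mul_sum, hs']
      push_cast; linarith
    · simp only [mul_one, Fintype.sum_prod_type, hH.mass hs fun r a => ey y (e _ r a)]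
      simp
      nlinarith [Nat.cast_nonneg (α := ℝ) (Fintype.card G)]

/-- the Boolean cube -/
abbrev Cu (n : ℕ) := Fin n → Bool

variable {n : ℕ}

/-- the Hadamard matrix -/
def Hd (a b : Cu n) : ℝ := ∏ i, sg (a i && b i)

/-- partial Hadamard transforms -/
def Gs (s : ℕ) (a b : Cu n) : ℝ :=
  ∏ i, if i.val < s then sg (a i && b i) else if a i = b i then 1 else 0

theorem Hd_symm (a b : Cu n) : Hd a b = Hd b a := by simp only [Hd, Bool.and_comm]

theorem Hd_had {h : ℝ} (h0 : 0 < h) (h1 : h * h * 2 ^ n = 1) : Had (Hd (n := n)) h := by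
  refine ⟨fun a b => ?_, fun a a' => ?_, by simpa using h1, h0⟩
  · simp [Hd, ← prod_mul_distrib, sg_mul_self]
  · simp only [Hd, ← prod_mul_distrib]
    rw [← Fintype.piFinset_univ, ← prod_univ_sum (fun _ => univ)
      fun i b => sg (a i && b) * sg (a' i && b)]
    split_ifs with h
    · simp [h, sg_mul_self]
    · obtain ⟨i, hi⟩ := Function.ne_iff.1 h
      refine prod_eq_zero (mem_univ i) ?_
      revert hi
      cases a i <;> cases a' i <;> simp [sg]

theorem Gs_zero (a b : Cu n) : Gs 0 a b = if a = b then 1 else 0 := by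
  simp [Gs, prod_ite_zero, funext_iff]

theorem Gs_last (a b : Cu n) : Gs n a b = Hd a b := by simp [Gs, Hd]

theorem Gs_succ (s : Fin n) (a b : Cu n) :
    Gs (s + 1) a b = Gs s (update a s false) b + sg (a s) * Gs s (update a s true) b := by
  have : ∀ c, ∏ i ∈ univ.erase s, (if i.val < s.val then sg (update a s c i && b i)
      else if update a s c i = b i then 1 else 0) = ∏ i ∈ univ.erase s,
        (if i.val < s.val + 1 then sg (a i && b i) else if a i = b i then 1 else 0) := fun c =>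
    prod_congr rfl fun i hi => by
      have := ne_of_mem_erase hi
      rw [update_of_ne this]
      exact if_congr (by rw [Ne, Fin.ext_iff] at this; omega) rfl rfl
  simp only [Gs, ← mul_prod_erase univ _ (mem_univ s), this, update_self]
  cases a s <;> cases b s <;> simp [sg]

theorem sg_int (b : Bool) : sg b ∈ (⊥ : Subring ℝ) := by
  cases b
  exacts [one_mem _, neg_mem (one_mem _)]

theorem Gs_int (s : ℕ) (a b : Cu n) : Gs s a b ∈ (⊥ : Subring ℝ) ∧ |Gs s a b| ≤ 1 := by
  refine ⟨prod_mem fun i _ => ?_, ?_⟩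
  · split_ifs
    exacts [sg_int _, one_mem _, zero_mem _]
  · rw [Gs, abs_prod]
    refine prod_le_one (fun _ _ => abs_nonneg _) fun i _ => ?_
    split_ifs <;> simp [abs_sg]

theorem tw_int (y : ℕ → Cu n → Bool) : ∀ r s a,
    ∑ b, Gs s a b * (sg (y r b) * SS Hd (fun r a => sg (y r a)) r b) ∈ (⊥ : Subring ℝ) ∧
    |∑ b, Gs s a b * (sg (y r b) * SS Hd (fun r a => sg (y r a)) r b)| ≤ (2 ^ n) ^ (r + 1) := by
  have key : ∀ r, (∀ b, SS Hd (fun r a => sg (y r a)) r b ∈ (⊥ : Subring ℝ) ∧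
      |SS Hd (fun r a => sg (y r a)) r b| ≤ (2 ^ n) ^ r) → ∀ s a,
      ∑ b, Gs s a b * (sg (y r b) * SS Hd (fun r a => sg (y r a)) r b) ∈ (⊥ : Subring ℝ) ∧
      |∑ b, Gs s a b * (sg (y r b) * SS Hd (fun r a => sg (y r a)) r b)| ≤ (2 ^ n) ^ (r + 1) :=
    fun r h s a => ⟨sum_mem fun b _ => mul_mem (Gs_int _ _ _).1 (mul_mem (sg_int _) (h b).1), by
      refine (abs_sum_le_sum_abs _ _).trans ((sum_le_card_nsmul _ _ ((2 ^ n) ^ r)
        fun b _ => ?_).trans (by simp [pow_succ']))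
      rw [abs_mul, abs_mul, abs_sg, one_mul]
      exact (mul_le_of_le_one_left (abs_nonneg _) (Gs_int _ _ _).2).trans (h b).2⟩
  intro r
  induction r with
  | zero => exact key 0 fun b => ⟨one_mem _, by simp [SS]⟩
  | succ r ih => exact key _ fun b => by simpa only [Gs_last, SS, smul_eq_mul] using ih n b

theorem exists_dec (m : ℕ) : ∃ (dec : (Fin (m + 2) → Bool) → ℝ) (enc : ℝ → Fin (m + 2) → Bool),
    ∀ v ∈ (⊥ : Subring ℝ), |v| ≤ 2 ^ m → dec (enc v) = v := by
  obtain ⟨e⟩ := Function.Embedding.nonempty_of_card_le (α := Icc (-2 ^ m : ℤ) (2 ^ m))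
    (β := Fin (m + 2) → Bool) (by
      have : (0 : ℤ) < 2 ^ m := by positivity
      simp only [Fintype.card_coe, Int.card_Icc, Fintype.card_fun, Fintype.card_bool,
        Fintype.card_fin, Int.toNat_le, pow_add]
      push_cast
      omega)
  have : Nonempty (Icc (-2 ^ m : ℤ) (2 ^ m)) := ⟨⟨0, by simp⟩⟩
  have : ∀ v : ℝ, ∃ b, v ∈ (⊥ : Subring ℝ) → |v| ≤ 2 ^ m → ((invFun e b).1 : ℝ) = v := fun v => by
    by_cases h : v ∈ (⊥ : Subring ℝ) ∧ |v| ≤ 2 ^ m
    · obtain ⟨z, rfl⟩ := Subring.mem_bot.1 h.1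
      refine ⟨e ⟨z, mem_Icc.2 (abs_le.1 (by exact_mod_cast h.2))⟩, fun _ _ => ?_⟩
      rw [leftInverse_invFun e.injective]
    · exact ⟨fun _ => false, fun a b => absurd ⟨a, b⟩ h⟩
  choose enc henc using this
  exact ⟨fun b => (invFun e b).1, enc, henc⟩

theorem Rep.equiv {I I' X Y : Type} [Fintype I] [DecidableEq I] [Fintype I'] [DecidableEq I']
    (e : I' ≃ I) {ex : X → I → Bool} {ey : Y → I → Bool} {K : X → Y → ℝ} {a : X → ℝ} {b : Y → ℝ}
    (h : Rep (fun x => ex x ∘ e) (fun y => ey y ∘ e) K a b) : Rep ex ey K a b := by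
  obtain ⟨ι, _, u, v, h1, h2, h3⟩ := h
  refine ⟨ι, inferInstance, fun x j => u x (e.symm j), fun y j => v y (e.symm j), fun x y => ?_,
    fun x => ?_, fun y => ?_⟩
  · rw [h1, ← e.sum_comp]; simp
  · rw [← e.sum_comp]; simpa using h2 x
  · rw [← e.sum_comp]; simpa using h3 y

end Crest.Agent.H0554
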