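import Crest.Agent.H0554.Rep
import Crest.Prelude.Def_QueryComplexity

/-! From a dual adversary solution to a quantum query algorithm. -/

set_option autoImplicit false
set_option linter.unusedSectionVars false

namespace Crest.Agent.H0554

open Finset Matrix Crest.MathPhysics.Query

theorem exists_orth {J Z : Type} [Fintype J] [DecidableEq J] [Fintype Z] [DecidableEq Z]
    (a b : Z → J → ℝ) (h : ∀ z z', a z ⬝ᵥ a z' = b z ⬝ᵥ b z') :
    ∃ O : Matrix J J ℝ, Oᵀ * O = 1 ∧ ∀ z, O *ᵥ a z = b z := by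
  let f : (Z → J → ℝ) → (Z → ℝ) →ₗ[ℝ] EuclideanSpace ℝ J := fun a =>
    Fintype.linearCombination ℝ fun z => WithLp.toLp 2 (a z)
  have hn : ∀ c, ‖f b c‖ = ‖f a c‖ := fun c => by
    have : ∀ a : Z → J → ℝ, ‖f a c‖ ^ 2 = ∑ z, ∑ z', c z * c z' * (a z ⬝ᵥ a z') := fun a => by
      rw [← real_inner_self_eq_norm_sq]
      simp only [f, Fintype.linearCombination_apply, sum_inner, inner_sum, inner_smul_left,
        inner_smul_right, EuclideanSpace.inner_toLp_toLp, star_trivial, conj_trivial, mul_sum]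
      exact sum_congr rfl fun z _ => sum_congr rfl fun z' _ => by ring
    rw [← sq_eq_sq₀ (norm_nonneg _) (norm_nonneg _), this, this]
    simp only [h]
  obtain ⟨g, hg⟩ := (f a).rangeRestrict.exists_rightInverse_of_surjective
    (LinearMap.range_rangeRestrict _)
  have hg' : ∀ w, f a (g w) = w := fun w => congrArg Subtype.val (LinearMap.congr_fun hg w)
  let L : LinearMap.range (f a) →ₗᵢ[ℝ] EuclideanSpace ℝ J :=
    ⟨f b ∘ₗ g, fun w => by rw [LinearMap.comp_apply, hn, hg']; rfl⟩
  have hL : ∀ c, L.extend (f a c) = f b c := fun c => by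
    rw [L.extend_apply ⟨f a c, c, rfl⟩]
    change f b (g _) = _
    rw [← sub_eq_zero, ← map_sub, ← norm_eq_zero, hn, map_sub, hg', sub_self, norm_zero]
  refine ⟨Matrix.of fun i j => L.extend (EuclideanSpace.single j 1) i, ?_, fun z => ?_⟩
  · ext j j'
    have := L.extend.inner_map_map (EuclideanSpace.single j' (1 : ℝ)) (EuclideanSpace.single j 1)
    rw [PiLp.inner_apply, EuclideanSpace.inner_single_left] at this
    simpa [Matrix.mul_apply, Matrix.one_apply, Pi.single_apply, eq_comm] using this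
  · have h1 := hL (Pi.single z 1)
    simp only [f, Fintype.linearCombination_apply_single, one_smul] at h1
    have h2 : (WithLp.toLp 2 (a z) : EuclideanSpace ℝ J)
        = ∑ j, a z j • EuclideanSpace.single j (1 : ℝ) := by
      ext i; simp [Pi.single_apply]
    rw [h2, map_sum] at h1
    funext i
    have := congrArg (fun w : EuclideanSpace ℝ J => w i) h1
    simpa [mulVec, dotProduct, mul_comm] using this

section
variable {n w : ℕ}

/-- the oracle on real vectors -/
def orR (x : Fin n → Bool) (ψ : QIdx n w → ℝ) : QIdx n w → ℝ :=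
  fun e => ψ (e.1, xor e.2.1 (x e.1), e.2.2)

theorem orR_dot (x : Fin n → Bool) (ψ : QIdx n w → ℝ) : orR x ψ ⬝ᵥ orR x ψ = ψ ⬝ᵥ ψ := by
  simp only [dotProduct, orR, Fintype.sum_prod_type, Fintype.sum_bool]
  refine sum_congr rfl fun i _ => ?_
  cases x i <;> simp [add_comm]

theorem orth_dot {J : Type} [Fintype J] [DecidableEq J] {O : Matrix J J ℝ} (h : Oᵀ * O = 1)
    (v : J → ℝ) : O *ᵥ v ⬝ᵥ O *ᵥ v = v ⬝ᵥ v := by
  rw [dotProduct_mulVec, ← mulVec_transpose, mulVec_mulVec, h, one_mulVec]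

theorem quantum_of_states (F : (Fin n → Bool) → Bool) (K : ℕ)
    (Ψ : ℕ → (Fin n → Bool) → QIdx n w → ℝ) (ψ : QIdx n w → ℝ) (out : QIdx n w → Bool)
    (h0 : ψ ⬝ᵥ ψ = 1)
    (hG : ∀ t < K, ∀ z z', orR z (Ψ t z) ⬝ᵥ orR z' (Ψ t z') = Ψ (t + 1) z ⬝ᵥ Ψ (t + 1) z')
    (h1 : ∀ z, (ψ - Ψ 0 z) ⬝ᵥ (ψ - Ψ 0 z) ≤ 1 / 12)
    (h2 : ∀ z, ∑ e, (if out e = F z then 0 else Ψ K z e ^ 2) ≤ 1 / 12) : QuantumComputes F K := by
  have : ∀ t : ℕ, ∃ O : Matrix (QIdx n w) (QIdx n w) ℝ, Oᵀ * O = 1 ∧ (t = 0 → O = 1) ∧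
      ∀ s < K, t = s + 1 → ∀ z, O *ᵥ orR z (Ψ s z) = Ψ (s + 1) z := by
    intro t
    by_cases ht : 0 < t ∧ t ≤ K
    · obtain ⟨s, rfl⟩ : ∃ s, t = s + 1 := ⟨t - 1, by omega⟩
      obtain ⟨O, h1, h2⟩ := exists_orth _ _ (hG s (by omega))
      exact ⟨O, h1, by omega, fun s' _ e => by obtain rfl : s = s' := by omega
                                               exact h2⟩
    · exact ⟨1, by simp, fun _ => rfl, fun s _ _ => by omega⟩
  choose O hO hO0 hO1 using this
  let S : (Fin n → Bool) → ℕ → QIdx n w → ℝ := fun z t =>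
    Nat.rec ψ (fun t s => O (t + 1) *ᵥ orR z s) t
  have hS : ∀ z t, stateAfter (fun t => (O t).map Complex.ofReal) z (fun e => (ψ e : ℂ)) t
      = fun e => Complex.ofReal (S z t e) := by
    intro z t
    induction t with
    | zero => simp [stateAfter, hO0 0 rfl, S]
    | succ t ih =>
      rw [stateAfter, ih]
      funext e
      simp [S, mulVec, dotProduct, oracle, orR]
  have hN : ∀ z t, S z t ⬝ᵥ S z t = 1 := by
    intro z t
    induction t with
    | zero => exact h0
    | succ t ih => exact (orth_dot (hO _) _).trans ((orR_dot _ _).trans ih)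
  have hE : ∀ z t, t ≤ K → (S z t - Ψ t z) ⬝ᵥ (S z t - Ψ t z) ≤ 1 / 12 := by
    intro z t
    induction t with
    | zero => exact fun _ => h1 z
    | succ t ih =>
      intro ht
      have : S z (t + 1) - Ψ (t + 1) z = O (t + 1) *ᵥ orR z (S z t - Ψ t z) := by
        rw [← hO1 (t + 1) t (by omega) rfl z]
        exact (mulVec_sub _ _ _).symm
      rw [this, orth_dot (hO _), orR_dot]
      exact ih (by omega)
  refine ⟨w, fun t => (O t).map Complex.ofReal, fun e => ψ e, out, fun t => ?_, ?_, fun z => ?_⟩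
  · rw [mem_unitaryGroup_iff']
    have := congrArg (fun M : Matrix _ _ ℝ => M.map Complex.ofReal) (hO t)
    ext i j
    simpa [Matrix.mul_apply, Matrix.one_apply, apply_ite] using congrFun (congrFun this i) j
  · simpa [dotProduct, sq] using h0
  · simp only [hS, Complex.norm_real, Real.norm_eq_abs, sq_abs]
    have e1 := hN z K
    have e2 := hE z K le_rfl
    have e3 := h2 z
    have e4 : ∑ e, S z K e * S z K e ≤ ∑ e, ((if out e = F z then S z K e ^ 2 else 0)
        + (2 * ((S z K e - Ψ K z e) * (S z K e - Ψ K z e))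
          + 2 * if out e = F z then 0 else Ψ K z e ^ 2)) := sum_le_sum fun e _ => by
      split_ifs
      · nlinarith [mul_self_nonneg (S z K e - Ψ K z e)]
      · nlinarith [sq_nonneg (S z K e - 2 * Ψ K z e)]
    simp only [sum_add_distrib, ← mul_sum] at e4
    simp only [dotProduct, Pi.sub_apply] at e1 e2
    linarith

end

/-- state vectors -/
noncomputable def vecQ {n w : ℕ} {ι : Type} (i0 : Fin n) (ω : Fin w ≃ Option Bool ⊕ Bool × ι)
    (P : Option Bool → ℝ) (M : Fin n → Bool → ι → ℝ) : QIdx n w → ℝ := fun e =>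
  (Sum.elim (fun o => if e.1 = i0 then P o else 0) (fun s => sg e.2.1 * M e.1 s.1 s.2)
      (ω e.2.2)) / √2

theorem vecQ_dot {n w : ℕ} {ι : Type} [Fintype ι] (i0 : Fin n)
    (ω : Fin w ≃ Option Bool ⊕ Bool × ι) (P M P' M') : vecQ i0 ω P M ⬝ᵥ vecQ i0 ω P' M'
      = ∑ o, P o * P' o + ∑ j, ∑ b, ∑ s, M j b s * M' j b s := by
  have e : ∀ f g : Option Bool ⊕ Bool × ι → ℝ, ∑ k, f (ω k) * g (ω k) = ∑ k, f k * g k :=
    fun f g => ω.sum_comp fun k => f k * g k
  simp only [dotProduct, vecQ, div_mul_div_comm, Real.mul_self_sqrt zero_le_two, ← sum_div]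
  rw [Fintype.sum_prod_type]
  simp only [Fintype.sum_prod_type (α₁ := Bool) (α₂ := Fin w)]
  have e' : ∀ (i : Fin n) (b : Bool), ∑ k, Sum.elim (fun o => if i = i0 then P o else 0)
      (fun s : Bool × ι => sg b * M i s.1 s.2) (ω k) * Sum.elim (fun o => if i = i0 then P' o else 0)
      (fun s : Bool × ι => sg b * M' i s.1 s.2) (ω k) = _ := fun i b => e _ _
  have e'' : ∀ b (x y : ℝ), sg b * x * (sg b * y) = x * y := fun b x y => by
    cases b <;> simp [sg]
  simp only [e', Fintype.sum_sum_type,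
    Sum.elim_inl, Sum.elim_inr, sum_add_distrib, Fintype.sum_prod_type, ite_mul, mul_ite,
    zero_mul, mul_zero, e'']
  simp [sum_add_distrib, ← mul_sum]
  ring

theorem vecQ_or {n w : ℕ} {ι : Type} (i0 : Fin n)
    (ω : Fin w ≃ Option Bool ⊕ Bool × ι) (z P M) :
    orR z (vecQ i0 ω P M) = vecQ i0 ω P fun j b s => sg (z j) * M j b s := by
  funext e
  simp only [orR, vecQ]
  rcases ω e.2.2 with o | s
  · rfl
  · cases e.2.1 <;> cases z e.1 <;> simp [sg]

theorem quantum_of_rep {n : ℕ} (i0 : Fin n) (F : (Fin n → Bool) → Bool) (W : ℝ) (K : ℕ)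
    (hK : 0 < K) (hW : 6 * W ≤ K)
    (h : Rep (fun x : {x // F x = true} => x.1) (fun y : {y // F y = false} => y.1)
      (fun _ _ => 1) (fun _ => W) (fun _ => W)) : QuantumComputes F K := by
  obtain ⟨ι, _, u, v, h1, h2, h3⟩ := h
  let wv : (Fin n → Bool) → Fin n → ι → ℝ := fun z =>
    if h : F z = true then u ⟨z, h⟩ else v ⟨z, by simpa using h⟩
  have hw : ∀ z, ∑ j, ∑ s, wv z j s ^ 2 ≤ W := fun z => by
    by_cases h : F z = true
    · simpa [wv, h] using h2 ⟨z, h⟩
    · simpa [wv, h] using h3 ⟨z, by simpa using h⟩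
  have hw' : ∀ z z', F z ≠ F z' →
      ∑ j, (if z j = z' j then 0 else ∑ s, wv z j s * wv z' j s) = 1 := fun z z' hz => by
    by_cases h : F z = true
    · have h' : F z' = false := by simpa [h] using hz
      simpa [wv, h, h'] using (h1 ⟨z, h⟩ ⟨z', h'⟩).symm
    · have h' : F z' = true := by simpa [h] using hz
      have := (h1 ⟨z', h'⟩ ⟨z, by simpa using h⟩).symm
      simp only [wv, h, h', dite_true, Bool.false_eq_true, dite_false]
      exact Eq.trans (sum_congr rfl fun j _ => if_congr eq_comm rfl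
        (sum_congr rfl fun s _ => mul_comm _ _)) this
  let ω := (Fintype.equivFin (Option Bool ⊕ Bool × ι)).symm
  have hdot := vecQ_dot i0 ω
  have hor := vecQ_or i0 ω
  have K0 : (0 : ℝ) < K := by exact_mod_cast hK
  let P : ℕ → Bool → Option Bool → ℝ := fun t c o =>
    o.elim (√((K - t) / K)) fun b => if b = c then √(t / K) else 0
  let M : (Fin n → Bool) → Fin n → Bool → ι → ℝ := fun z j b s =>
    (if b then sg (z j) * sg (F z) else 1) * wv z j s / (2 * √K)
  have hP : ∀ t ≤ K, ∀ c c', ∑ o, P t c o * P t c' o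
      = (K - t) / K + if c = c' then (t : ℝ) / K else 0 := fun t ht c c' => by
    have : (0 : ℝ) ≤ (K - t) / K := div_nonneg (sub_nonneg.2 (by exact_mod_cast ht)) K0.le
    have h' : (0 : ℝ) ≤ t / K := by positivity
    cases c <;> cases c' <;> simp [P, Real.mul_self_sqrt this, Real.mul_self_sqrt h',
      -Real.sqrt_div', -Real.sqrt_div]
  have hM : ∀ z z' j b s, M z j b s * M z' j b s = (if b then sg (z j) * sg (z' j)
      * (sg (F z) * sg (F z')) else 1) * (wv z j s * wv z' j s) / (4 * K) := fun z z' j b s => by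
    simp only [M]
    rw [div_mul_div_comm, mul_mul_mul_comm 2, Real.mul_self_sqrt K0.le]
    split_ifs <;> ring
  have hMM : ∀ z, ∑ j, ∑ b, ∑ s, M z j b s * M z j b s ≤ 1 / 12 := fun z => by
    simp only [hM, sg_mul_self, one_mul, ite_self]
    simp only [← sum_div, ← sq, sum_const, card_univ,
      Fintype.card_bool, nsmul_eq_mul, ← mul_sum]
    rw [div_le_iff₀ (by positivity)]
    have := hw z
    push_cast
    linarith
  refine quantum_of_states F K (fun t z => vecQ i0 ω (P t (F z)) (M z)) (vecQ i0 ω (P 0 true) 0)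
    (fun e => Sum.elim (fun o => o.getD false) (fun _ => false) (ω e.2.2)) ?_
    (fun t ht z z' => ?_) (fun z => ?_) fun z => ?_
  · rw [hdot, hP 0 (by omega)]
    simp [K0.ne']
  · rw [hor, hor, hdot, hdot, hP t ht.le, hP _ ht]
    simp only [mul_mul_mul_comm (sg (z _)), hM, Fintype.sum_bool, if_true, Bool.false_eq_true,
      if_false, one_mul, ← mul_div_assoc, ← sum_div, ← mul_sum]
    have e3 : ∑ j, (sg (z j) * sg (F z) * (sg (z' j) * sg (F z')) * ∑ s, wv z j s * wv z' j s
          + ∑ s, wv z j s * wv z' j s) = ∑ j, sg (z j) * sg (z' j) * (sg (z j) * sg (F z) *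
          (sg (z' j) * sg (F z')) * ∑ s, wv z j s * wv z' j s + ∑ s, wv z j s * wv z' j s)
          + (if F z = F z' then 0 else 4) *
            ∑ j, (if z j = z' j then 0 else ∑ s, wv z j s * wv z' j s) := by
      rw [mul_sum, ← sum_add_distrib]
      refine sum_congr rfl fun j _ => ?_
      cases z j <;> cases z' j <;> cases F z <;> cases F z' <;> simp [sg] <;> ring
    rw [e3]
    generalize ∑ j, sg (z j) * sg (z' j) * _ = A
    by_cases hz : F z = F z'
    · simp only [hz, if_true]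
      push_cast; field_simp; ring
    · simp only [hz, if_false, hw' z z' hz]
      push_cast; field_simp; ring
  · have : vecQ i0 ω (P 0 true) 0 - vecQ i0 ω (P 0 (F z)) (M z) = vecQ i0 ω 0 (-M z) := by
      funext e
      simp only [vecQ, Pi.sub_apply]
      rcases ω e.2.2 with (_ | o) | s <;> simp [P, neg_div]
    rw [this, hdot]
    simpa using hMM z
  · refine le_trans (sum_le_sum fun e _ => ?_) ((hdot 0 (M z) 0 (M z)).le.trans (by
      simpa using hMM z))
    simp only [vecQ]
    rcases ω e.2.2 with (_ | o) | s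
    · simp [P]
    · by_cases ho : o = F z <;> simp [P, ho]
    · simp only [Sum.elim_inr, ← sq]
      split_ifs
      exacts [sq_nonneg _, le_rfl]

end Crest.Agent.H0554
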