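import Crest.Agent.H0554.Amp
import Crest.Agent.H0554.Quant

/-! The function and its two bounds. -/

set_option autoImplicit false
set_option linter.unusedSectionVars false

namespace Crest.Agent.H0554

open Finset Function Crest.MathPhysics.Query

/-- positions inside a group -/
inductive Pos (n K w : ℕ) : Type
  | inst (j : Fin K × Cu n)
  | col (a : Cu n)
  | ptr (α g : Cu n) (s : Fin n)
  | prf (α : Cu n) (r : Fin K) (s : Fin (n + 1)) (a : Cu n) (b : Fin w)
  deriving DecidableEq, Fintype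

/-- all positions -/
abbrev Ix (n K w : ℕ) := Cu n × Pos n K w

/-- the local checks -/
abbrev Chk (n K : ℕ) := Cu n ⊕ Cu n ⊕ (Fin K × Cu n) ⊕ (Fin K × Fin n × Cu n) ⊕ Unit

variable {n K w : ℕ} [NeZero K] (dec : (Fin w → Bool) → ℝ) (h θ : ℝ)

/-- the pointer of cell `c` finds a zero in column `g` -/
def beats (z : Ix n K w → Bool) (c : Cu n × Cu n) (g : Cu n) : Prop :=
  z (g, .col fun s => z (c.1, .ptr c.2 g s)) = false

/-- claimed wire values -/
def wire (c : Cu n × Cu n) (r : Fin K) (s : Fin (n + 1)) (a : Cu n) (z : Ix n K w → Bool) : ℝ :=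
  dec fun b => z (c.1, .prf c.2 r s a b)

/-- claimed amplitudes -/
def Wp (c : Cu n × Cu n) : ℕ → Cu n → (Ix n K w → Bool) → ℝ
  | 0 => fun _ _ => 1
  | r + 1 => wire dec c (Fin.ofNat K r) (Fin.last n)

/-- the checks of a cell -/
def chk (z : Ix n K w → Bool) (c : Cu n × Cu n) : Chk n K → Prop
  | .inl a => z (c.1, .col a) = true
  | .inr (.inl g) => g = c.1 ∨ beats z c g
  | .inr (.inr (.inl (r, a))) => wire dec c r 0 a z = sg (z (c.1, .inst (r, a))) * Wp dec c r a z
  | .inr (.inr (.inr (.inl (r, s, a)))) => wire dec c r s.succ a z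
      = wire dec c r s.castSucc (update a s false) z
        + sg (a s) * wire dec c r s.castSucc (update a s true) z
  | .inr (.inr (.inr (.inr _))) => θ ≤ h ^ (K + 1) * Wp dec c K c.2 z

/-- amplitudes of an instance -/
noncomputable def amp (α : Cu n) (y : Fin K × Cu n → Bool) : ℝ :=
  h ^ (K + 1) * SS Hd (fun r a => sg (y (ix K r a))) K α

theorem beats_dp (c : Cu n × Cu n) (g : Cu n) :
    Dp (n + 1) fun z : Ix n K w → Bool => beats z c g :=
  (Dp.bits n fun s => ((c.1, .ptr c.2 g s) : Ix n K w)).bind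
    (g' := fun v z => z (g, .col v) = false) fun _ => (Dp.bit _).map (· = false)

theorem wire_dp (c : Cu n × Cu n) (r : Fin K) (s : Fin (n + 1)) (a : Cu n) :
    Dp w (wire dec c r s a) := (Dp.bits w fun b => ((c.1, .prf c.2 r s a b) : Ix n K w)).map dec

theorem Wp_dp (c : Cu n × Cu n) (a : Cu n) : ∀ r, Dp w (Wp (K := K) dec c r a)
  | 0 => Dp.const _ _
  | _ + 1 => wire_dp dec c _ _ a

theorem chk_dp (c : Cu n × Cu n) : ∀ t : Chk n K,
    Dp (n + 1 + 3 * w) fun z : Ix n K w → Bool => chk dec h θ z c t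
  | .inl a => ((Dp.bit _).map (· = true)).mono (by omega)
  | .inr (.inl g) => ((beats_dp c g).map (g = c.1 ∨ ·)).mono (by omega)
  | .inr (.inr (.inl (r, a))) => ((wire_dp dec c r 0 a).map2 ((Dp.bit (c.1, .inst (r, a))).map2
      (Wp_dp dec c a r) fun b v => sg b * v) Eq).mono (by omega)
  | .inr (.inr (.inr (.inl (r, s, a)))) => ((wire_dp dec c r s.succ a).map2
      ((wire_dp dec c r s.castSucc (update a s false)).map2
        (wire_dp dec c r s.castSucc (update a s true)) fun u v => u + sg (a s) * v) Eq).mono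
        (by omega)
  | .inr (.inr (.inr (.inr _))) => ((Wp_dp dec c c.2 K).map (θ ≤ h ^ (K + 1) * ·)).mono (by omega)

variable {dec h θ}

theorem chk_sound {z : Ix n K w → Bool} {c : Cu n × Cu n} (hc : ∀ t, chk dec h θ z c t) :
    θ ≤ amp h c.2 fun j => z (c.1, .inst j) := by
  have key : ∀ r ≤ K, ∀ a, Wp dec c r a z
      = SS Hd (fun r a => sg (z (c.1, .inst (ix K r a)))) r a := by
    intro r
    induction r with
    | zero => exact fun _ _ => rfl
    | succ r ih =>
      intro hr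
      have : ∀ (s : Fin (n + 1)) a, wire dec c (Fin.ofNat K r) s a z = ∑ b, Gs s a b *
          (sg (z (c.1, .inst (ix K r b))) *
            SS Hd (fun r a => sg (z (c.1, .inst (ix K r a)))) r b) := by
        intro s
        induction s using Fin.induction with
        | zero =>
          intro a
          have := hc (.inr (.inr (.inl (ix K r a))))
          simp only [chk, ix_val (show r < K by omega), ih (by omega)] at this
          exact this.trans (by simp [Gs_zero]; exact Or.inl rfl)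
        | succ s ihs =>
          intro a
          have := hc (.inr (.inr (.inr (.inl (Fin.ofNat K r, s, a)))))
          simp only [chk, ihs] at this
          simp only [this, Fin.val_succ, Gs_succ, add_mul, sum_add_distrib, Fin.val_castSucc,
            mul_sum, mul_assoc]
      intro a
      simp only [Wp, this, Fin.val_last, Gs_last, SS, smul_eq_mul]
  have := hc (.inr (.inr (.inr (.inr ()))))
  simp only [chk, key K le_rfl] at this
  exact this

theorem upper {N : ℕ} (e : Ix n K w ≃ Fin N) (F : (Fin N → Bool) → Bool)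
    (hF : ∀ x, F x = true ↔ ∃ c, ∀ t, chk dec h θ (x ∘ e) c t) (hH : Had (Hd (n := n)) h)
    (hθ : 0 < θ) (hθ1 : θ ≤ 1) (hn : 1 ≤ n) {D Λ : ℝ}
    (hD : 4 * K + 2 * (n + 1 + 3 * w : ℕ) * n ≤ D) (hΛ : 1 ≤ Λ)
    (hΛM : 2 * n * 2 ^ n ≤ θ ^ 2 * Λ ^ 2) (hΛL : Fintype.card (Chk n K) ≤ Λ ^ 2) {Q : ℕ}
    (hQ0 : 0 < Q) (hQ : 6 * (2 * (n + 2) * D * Λ / θ ^ 2) ≤ Q) : QuantumComputes F Q := by
  classical
  have hm : ∀ (z : Ix n K w → Bool) g, ∑ α, (amp h α fun j => z (g, .inst j)) ^ 2 = 1 :=
    fun z g => hH.mass Hd_symm _ K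
  refine quantum_of_rep (e (fun _ => false, .col fun _ => false)) F _ Q hQ0 hQ (Rep.equiv e ?_)
  refine tour (grp := Prod.fst) (beats := beats) (chk := chk dec h θ) (C := 4 * K) (M := 2 ^ n)
    (Ψ := fun z c => amp h c.2 fun j => z (c.1, .inst j)) (fun z g => ?_) ?_ (fun z => ?_)
    (fun c g => (beats_dp c g).mono (by omega)) (chk_dp dec h θ) (fun z c hc => ⟨chk_sound hc,
      fun c' => ?_⟩) _ _ (fun x => (hF x).1 x.2) (fun y c => ?_) hθ hθ1 hn le_rfl (by positivity) hD
    hΛ hΛM hΛL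
  · rw [Fintype.sum_prod_type, sum_eq_single g (fun b _ hb => by simp [hb]) (by simp)]
    simp [hm]
  · simpa [amp] using hH.smp Hd_symm (I := Ix n K w) (fun g r a => (g, .inst (ix K r a))) K
  · simp [Fintype.sum_prod_type, hm]
  · rcases hc (.inr (.inl c'.1)) with h | h
    · exact Or.inl h.symm
    · exact Or.inr ⟨h, by simpa [beats, chk] using hc (.inl _)⟩
  · by_contra h'
    have := (hF y).2 ⟨c, by simpa using h'⟩
    simp [y.2] at this

/-- state of a group -/
abbrev St (n K : ℕ) := Cu n × (Fin K × Cu n → Bool) × Cu n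

/-- negative inputs -/
def Z0 (ω : Cu n → St n K) : Ix n K w → Bool
  | (g, .inst j) => (ω g).2.1 j
  | (g, .col a) => decide (a ≠ (ω g).2.2)
  | _ => false

/-- neutral group -/
def Gn (y : Fin K × Cu n → Bool) : Pos n K w → Bool
  | .inst j => y j
  | .col _ => true
  | _ => false

/-- true wire values -/
noncomputable def tw (y : Fin K × Cu n → Bool) (r s : ℕ) (a : Cu n) : ℝ :=
  ∑ b, Gs s a b * (sg (y (ix K r b)) * SS Hd (fun r a => sg (y (ix K r a))) r b)

/-- winning group -/
noncomputable def G1 (enc : ℝ → Fin w → Bool) (ω : Cu n → St n K) (g : Cu n) : Pos n K w → Bool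
  | .inst j => (ω g).2.1 j
  | .col _ => true
  | .ptr α g' s => decide (α = (ω g).1) && (ω g').2.2 s
  | .prf α r s a b => decide (α = (ω g).1) && enc (tw (ω g).2.1 r s a) b

/-- address labels -/
def labA : Pos n K w → Option (Cu n)
  | .ptr α _ _ => some α
  | .prf α _ _ _ _ => some α
  | _ => none

/-- column labels -/
def labC : Pos n K w → Option (Cu n)
  | .col a => some a
  | _ => none

theorem G1_chk {enc : ℝ → Fin w → Bool}
    (hd : ∀ v ∈ (⊥ : Subring ℝ), |v| ≤ 2 ^ (n * K) → dec (enc v) = v) (ω : Cu n → St n K) (g : Cu n)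
    (hθ : θ ≤ amp h (ω g).1 (ω g).2.1) (t : Chk n K) :
    chk dec h θ (fun p => if p.1 = g then G1 enc ω g p.2 else Z0 ω p) (g, (ω g).1) t := by
  set z : Ix n K w → Bool := fun p => if p.1 = g then G1 enc ω g p.2 else Z0 ω p
  have hw : ∀ r s a, wire dec (g, (ω g).1) r s a z = tw (ω g).2.1 r s a := fun r s a => by
    have := tw_int (fun r a => (ω g).2.1 (ix K r a)) r s a
    simp only [wire, z, G1, if_true, decide_true, Bool.true_and]
    refine hd _ this.1 (this.2.trans ?_)
    rw [pow_mul]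
    exact pow_le_pow_right₀ (one_le_pow₀ one_le_two) r.2
  have hW : ∀ r ≤ K, ∀ a, Wp dec (g, (ω g).1) r a z
      = SS Hd (fun r a => sg ((ω g).2.1 (ix K r a))) r a := fun r hr a => by
    rcases r with _ | r
    · rfl
    · have := ix_val (show r < K by omega) a
      simp only [ix] at this
      simp only [Wp, hw, this, tw, Fin.val_last, Gs_last, SS, smul_eq_mul]
  rcases t with a | g' | ⟨r, a⟩ | ⟨r, s, a⟩ | _
  · simp [chk, z, G1]
  · by_cases h : g' = g
    · exact Or.inl h
    · exact Or.inr (by simp [beats, z, G1, Z0, h])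
  · simp only [chk, hw, hW r r.2.le, tw]
    simp [Gs_zero, z, G1, ix]
  · simp only [chk, hw, tw, Fin.val_succ, Gs_succ, add_mul, sum_add_distrib, Fin.val_castSucc,
      mul_sum, mul_assoc]
  · simp only [chk, hW K le_rfl]
    exact hθ

theorem lower' {N : ℕ} (e : Ix n K w ≃ Fin N) (F : (Fin N → Bool) → Bool)
    (hF : ∀ x, F x = true ↔ ∃ c, ∀ t, chk dec h θ (x ∘ e) c t) {enc : ℝ → Fin w → Bool}
    (hd : ∀ v ∈ (⊥ : Subring ℝ), |v| ≤ 2 ^ (n * K) → dec (enc v) = v) {B : ℕ}
    (wt : Cu n → (Fin K × Cu n → Bool) → ℝ) (w0 : ∀ α y, 0 ≤ wt α y)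
    (w1 : ∀ α y, wt α y ≠ 0 → θ ≤ amp h α y) (wP : 0 < ∑ α, ∑ y, wt α y)
    (hw : ∀ f : Cu n → (Fin K × Cu n → Bool) → Bool, (∀ α, Dp B (f α)) →
      (∀ y, ∑ α, ind (f α y) ≤ B) → 12 * ∑ α, ∑ y, wt α y * ind (f α y) ≤ ∑ α, ∑ y, wt α y)
    (hB : 12 * B ≤ 2 ^ n) {r : ℕ} (hr : RandomizedComputes F r) : (B : ℝ) * 2 ^ n ≤ 6 * r := by
  have := lower (fun i => (e.symm i).1) (fun i => labA (e.symm i).2) (fun i => labC (e.symm i).2)
    (fun ω => Z0 ω ∘ e.symm)
    (fun ω g => (fun p => if p.1 = g then G1 enc ω g p.2 else Z0 ω p) ∘ e.symm)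
    (fun ω g y => (fun p => if p.1 = g then Gn y p.2 else Z0 ω p) ∘ e.symm) wt (fun ω => ?_)
    (fun ω g hg => ?_) (fun ω g i => ?_) (fun ω g i => ?_) (fun ω g b => ?_) (fun ω g i => ?_)
    w0 wP hw (by simpa using hB) (by simp) hr
  · simpa using this
  · rw [← Bool.not_eq_true, hF]
    rintro ⟨c, hc⟩
    simpa [chk, Z0] using hc (.inl (ω c.1).2.2)
  · rw [hF, comp_assoc, e.symm_comp_self, comp_id]
    exact ⟨_, G1_chk hd ω g (w1 _ _ hg)⟩
  · simp only [comp_apply]
    rcases e.symm i with ⟨g', p⟩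
    by_cases hg : g' = g
    · subst hg
      cases p <;> simp [Z0, Gn, labC]
    · simp [hg]
  · simp only [comp_apply]
    rcases e.symm i with ⟨g', p⟩
    by_cases hg : g' = g
    · subst hg
      cases p <;> simp +contextual [G1, Gn, labA]
    · simp [hg]
  · funext y i
    simp only [comp_apply]
    rcases e.symm i with ⟨g', p⟩
    by_cases hg : g' = g
    · simp [hg]
    · cases p <;> simp [hg, Z0]
  · simp only [comp_apply]
    rcases e.symm i with ⟨g', p⟩
    by_cases hg : g' = g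
    · simp only [hg, if_true]
      cases p
      exacts [Dp.bit _, Dp.const _ _, Dp.const _ _, Dp.const _ _]
    · simp only [hg, if_false]
      exact Dp.const _ _

end Crest.Agent.H0554
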