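import Mathlib

/-! The Gaussian expectation on polynomials. -/

set_option autoImplicit false
set_option linter.unusedSectionVars false

namespace Crest.Agent.H0554

open Finset MvPolynomial MeasureTheory

theorem exists_mom : ∃ w : ℝ → ℝ, (∀ t, 0 ≤ w t) ∧ (∀ k : ℕ, Integrable fun t => t ^ k * w t) ∧
    (∫ t, t ^ 0 * w t = 1) ∧ ∀ k : ℕ, ∫ t, t ^ (k + 1) * w t = k * ∫ t, t ^ (k - 1) * w t := by
  have hi : ∀ k : ℕ, Integrable fun t : ℝ => t ^ k * Real.exp (-(1 / 2) * t ^ 2) := fun k => by
    simpa using integrable_rpow_mul_exp_neg_mul_sq (b := 1 / 2) (s := k) (by norm_num)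
      (by have : (0 : ℝ) ≤ k := by positivity
          linarith)
  have c0 : 0 < √(Real.pi / (1 / 2)) := by positivity
  refine ⟨fun t => Real.exp (-(1 / 2) * t ^ 2) / √(Real.pi / (1 / 2)), fun t => by positivity,
    fun k => ?_, ?_, fun k => ?_⟩
  · simpa only [mul_div_assoc] using (hi k).div_const _
  · simp only [pow_zero, one_mul]
    rw [integral_div, integral_gaussian, div_self c0.ne']
  · simp only [← mul_div_assoc, integral_div]
    congr 1
    have := integral_eq_zero_of_hasDerivAt_of_integrable
      (f := fun t : ℝ => t ^ k * Real.exp (-(1 / 2) * t ^ 2))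
      (f' := fun t : ℝ => k * (t ^ (k - 1) * Real.exp (-(1 / 2) * t ^ 2))
        - t ^ (k + 1) * Real.exp (-(1 / 2) * t ^ 2)) (fun t => by
        refine ((hasDerivAt_pow k t).mul (((hasDerivAt_pow 2 t).const_mul
          (-(1 / 2))).exp)).congr_deriv ?_
        push_cast
        ring) (((hi _).const_mul _).sub (hi _)) (hi k)
    rw [integral_sub ((hi _).const_mul _) (hi _), integral_const_mul] at this
    linarith

/-- Gaussian expectation with a parameter -/
structure Gau (V : Type) where
  L : ℝ → MvPolynomial (Option V) ℝ →ₗ[ℝ] ℝ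
  one : ∀ s, L s 1 = 1
  pos : ∀ s p, (∀ u : V → ℝ, 0 ≤ aeval (fun o : Option V => o.elim s u) p) → 0 ≤ L s p
  stein : ∀ s v p, L s (X (some v) * p) = L s (pderiv (some v) p)
  deriv : ∀ s p, HasDerivAt (fun s => L s p) (L s (pderiv none p)) s

theorem exists_gau (V : Type) [Fintype V] [DecidableEq V] : Nonempty (Gau V) := by
  obtain ⟨w, w0, wi, w1, w2⟩ := exists_mom
  have e : ∀ (s : ℝ) (m : Option V →₀ ℕ) (c : ℝ) (u : V → ℝ),
      aeval (fun o : Option V => o.elim s u) (monomial m c) * ∏ v, w (u v)
        = c * s ^ m none * ∏ v, (u v ^ m (some v) * w (u v)) := fun s m c u => by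
    rw [aeval_monomial, Finsupp.prod_fintype _ _ (by simp), Fintype.prod_option, prod_mul_distrib]
    simp [mul_assoc]
  have hi : ∀ (s : ℝ) (p : MvPolynomial (Option V) ℝ), Integrable fun u : V → ℝ =>
      aeval (fun o : Option V => o.elim s u) p * ∏ v, w (u v) := fun s p => by
    induction p using MvPolynomial.induction_on' with
    | monomial m c =>
      simp only [e]
      exact (Integrable.fintype_prod (f := fun v t => t ^ m (some v) * w t)
        fun v => wi _).const_mul _
    | add p q hp hq => simp only [map_add, add_mul]; exact hp.add hq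
  let L : ℝ → MvPolynomial (Option V) ℝ →ₗ[ℝ] ℝ := fun s =>
    { toFun := fun p => ∫ u : V → ℝ, aeval (fun o : Option V => o.elim s u) p * ∏ v, w (u v)
      map_add' := fun p q => by
        simp only [map_add, add_mul]; exact integral_add (hi s p) (hi s q)
      map_smul' := fun c p => by
        simp only [map_smul, smul_eq_mul, mul_assoc, integral_const_mul, RingHom.id_apply] }
  have hL : ∀ s m c, L s (monomial m c) = c * s ^ m none * ∏ v, ∫ t, t ^ m (some v) * w t :=
    fun s m c => by
      change ∫ u : V → ℝ, _ = _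
      simp only [e]
      rw [integral_const_mul, integral_fintype_prod_volume_eq_prod
        (fun v t => t ^ m (some v) * w t)]
  refine ⟨⟨L, fun s => ?_, fun s p hp => ?_, fun s v p => ?_, fun s p => ?_⟩⟩
  · rw [show (1 : MvPolynomial (Option V) ℝ) = monomial 0 1 from rfl, hL]
    simp only [Finsupp.coe_zero, Pi.zero_apply, w1]
    simp
  · exact integral_nonneg fun u => mul_nonneg (hp u) (prod_nonneg fun v _ => w0 _)
  · induction p using MvPolynomial.induction_on' with
    | monomial m c =>
      rw [X, monomial_mul, pderiv_monomial, hL, hL, ← mul_prod_erase _ _ (mem_univ v),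
        ← mul_prod_erase _ _ (mem_univ v)]
      rw [prod_congr rfl (g := fun v => ∫ t, t ^ m (some v) * w t) fun j hj => by
        simp [ne_of_mem_erase hj], prod_congr (s₁ := univ.erase v) rfl
        (f := fun v' => ∫ t, t ^ (m - Finsupp.single (some v) 1 : Option V →₀ ℕ) (some v') * w t)
        (g := fun v => ∫ t, t ^ m (some v) * w t) fun j hj => by simp [ne_of_mem_erase hj]]
      simp [add_comm 1, w2]
      ring
    | add p q hp hq => simp only [mul_add, map_add, hp, hq]
  · induction p using MvPolynomial.induction_on' with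
    | monomial m c =>
      simp only [pderiv_monomial, hL]
      refine (((hasDerivAt_pow (m none) s).const_mul c).mul_const _).congr_deriv ?_
      simp [mul_assoc]
    | add p q hp hq => simp only [map_add]; exact hp.add hq

namespace Gau
variable {V : Type} (G : Gau V)

theorem mono {s : ℝ} {p q : MvPolynomial (Option V) ℝ} (h : ∀ u : V → ℝ,
    aeval (fun o : Option V => o.elim s u) p ≤ aeval (fun o : Option V => o.elim s u) q) :
    G.L s p ≤ G.L s q := by
  have := G.pos s (q - p) fun u => by rw [map_sub]; exact sub_nonneg.2 (h u)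
  rwa [map_sub, sub_nonneg] at this

theorem congr {s : ℝ} {p q : MvPolynomial (Option V) ℝ} (h : ∀ u : V → ℝ,
    aeval (fun o : Option V => o.elim s u) p = aeval (fun o : Option V => o.elim s u) q) :
    G.L s p = G.L s q :=
  le_antisymm (G.mono fun u => (h u).le) (G.mono fun u => (h u).ge)

theorem abs_le {s : ℝ} {p q : MvPolynomial (Option V) ℝ} (h : ∀ u : V → ℝ,
    |aeval (fun o : Option V => o.elim s u) p| ≤ aeval (fun o : Option V => o.elim s u) q) :
    |G.L s p| ≤ G.L s q := by
  refine _root_.abs_le.2 ⟨?_, G.mono fun u => (le_abs_self _).trans (h u)⟩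
  rw [neg_le, ← map_neg]
  exact G.mono fun u => by rw [map_neg]; exact (neg_le_abs _).trans (h u)

end Gau

end Crest.Agent.H0554
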