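import Crest.Agent.H0554.Alg
import Crest.Agent.H0554.Gauss

/-! The hard distribution for finding the address. -/

set_option autoImplicit false
set_option linter.unusedSectionVars false

namespace Crest.Agent.H0554

open Finset Function MvPolynomial

variable {C : Type} [Fintype C] [DecidableEq C] {K : ℕ} [NeZero K]

/-- position `a` of block `r` -/
def ix (K : ℕ) [NeZero K] (r : ℕ) (a : C) : Fin K × C := (Fin.ofNat K r, a)

theorem ix_val {r : ℕ} (h : r < K) (a : C) : (ix K r a).1.val = r := by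
  simp [ix, Nat.mod_eq_of_lt h]

theorem sum_ix {M : Type} [AddCommMonoid M] {j : ℕ} (hj : j < K) (F : Fin K × C → M) :
    ∑ i, (if i.1.val = j then F i else 0) = ∑ b, F (ix K j b) := by
  rw [Fintype.sum_prod_type, sum_eq_single (Fin.ofNat K j)]
  · simp [ix, Nat.mod_eq_of_lt hj]
  · intro r _ hr
    refine sum_eq_zero fun b _ => if_neg ?_
    rintro rfl
    simp at hr
  · simp

/-- the ambient polynomial ring -/
abbrev RR (K : ℕ) (C : Type) := MvPolynomial (Option (Fin K × C)) ℝ

section defs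
variable (H : C → C → ℝ) (h ε : ℝ) (χ : C → ℝ)

/-- rotated Gaussians -/
noncomputable def VV (i : Fin K × C) : RR K C := ∑ c, (h * H i.2 c) • X (some (i.1 - 1, c))

/-- dual derivations -/
noncomputable def dV (i : Fin K × C) : Derivation ℝ (RR K C) (RR K C) :=
  ∑ c, (h * H i.2 c) • pderiv (some (i.1 - 1, c))

/-- left factor -/
noncomputable def Lft (i : Fin K × C) : RR K C := if i.1.val = 0 then 1 else ε • VV H h i

/-- right factor -/
noncomputable def Rgt (i : Fin K × C) : RR K C :=
  if i.1.val + 1 = K then χ i.2 • X none else ε • X (some i)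

/-- the biases -/
noncomputable def ZZ (i : Fin K × C) : RR K C := Lft H h ε i * Rgt ε χ i

/-- transversal sets -/
def TT (j : ℕ) (a : Fin K → C) : Finset (Fin K × C) := univ.filter fun i => j ≤ i.1.val ∧ i.2 = a i.1

end defs

/-- normalised Hadamard matrices -/
structure Had (H : C → C → ℝ) (h : ℝ) : Prop where
  sq : ∀ a b, H a b * H a b = 1
  orth : ∀ a a', ∑ c, H a c * H a' c = if a = a' then (Fintype.card C : ℝ) else 0
  norm : h * h * Fintype.card C = 1
  pos : 0 < h

variable {H : C → C → ℝ} {h ε : ℝ} {χ : C → ℝ}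

theorem Had.abs (hH : Had H h) (a b : C) : |H a b| = 1 := by
  rw [← sq_eq_sq₀ (abs_nonneg _) zero_le_one, sq_abs, _root_.sq, hH.sq, one_pow]

theorem Had.card_pos (hH : Had H h) : (0 : ℝ) < Fintype.card C := by
  have := hH.norm
  rcases (Nat.cast_nonneg (α := ℝ) (Fintype.card C)).eq_or_lt with e | e
  · rw [← e] at this; simp at this
  · exact e

theorem dV_X (i j : Fin K × C) : dV H h i (X (some j))
    = (if j.1 = i.1 - 1 then h * H i.2 j.2 else 0) • (1 : RR K C) := by
  simp only [dV, deriv_sum_apply, Derivation.smul_apply, pderiv_X, Pi.single_apply]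
  rw [sum_eq_single j.2]
  · simp [Prod.ext_iff]
  · intro b _ hb; simp [Prod.ext_iff, hb.symm]
  · simp

theorem dV_none (i : Fin K × C) : dV H h i (X none) = 0 := by
  simp [dV, deriv_sum_apply, pderiv_X]

theorem dV_VV (hH : Had H h) (i j : Fin K × C) :
    dV H h i (VV H h j) = if i = j then 1 else 0 := by
  simp only [VV, map_sum, Derivation.map_smul, dV_X, smul_smul, ← sum_smul, sub_left_inj]
  by_cases h1 : j.1 = i.1
  · simp only [h1, if_true, mul_mul_mul_comm h, ← mul_sum, hH.orth, Prod.ext_iff, true_and]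
    by_cases h2 : i.2 = j.2
    · simp [h2, hH.norm]
    · simp [h2, Ne.symm h2]
  · simp [h1, Prod.ext_iff, Ne.symm h1]

theorem stein_V (G : Gau (Fin K × C)) (s : ℝ) (i : Fin K × C) (p : RR K C) :
    G.L s (VV H h i * p) = G.L s (dV H h i p) := by
  simp only [VV, dV, sum_mul, deriv_sum_apply, map_sum, smul_mul_assoc, map_smul,
    Derivation.smul_apply, G.stein]

theorem dV_ZZ (hH : Had H h) {j : ℕ} (hj : j + 1 < K) (a : C) {i : Fin K × C}
    (hi : i ≠ ix K (j + 1) a) : dV H h (ix K (j + 1) a) (ZZ H h ε χ i)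
      = if i.1.val = j then (ε * h * H a i.2) • Lft H h ε i else 0 := by
  have e1 : dV H h (ix K (j + 1) a) (Lft H h ε i) = 0 := by
    unfold Lft; split_ifs <;> simp [dV_VV hH, hi.symm]
  have e2 : i.1 = (ix K (j + 1) a).1 - 1 ↔ i.1.val = j := by
    have : (ix K (j + 1) a).1 - 1 = (ix K j a).1 := by
      rw [sub_eq_iff_eq_add]; ext; simp [Fin.val_add, ix]
    rw [this, Fin.ext_iff, ix_val (by omega)]
  rw [ZZ, Derivation.leibniz, e1, smul_zero, add_zero, Rgt]
  split_ifs with h1 h2 h2
  · omega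
  · simp [dV_none]
  · simp [dV_X, e2, h2, smul_smul, mul_assoc]; rfl
  · simp [dV_X, e2, h2]

theorem dn_ZZ (i : Fin K × C) : pderiv none (ZZ H h ε χ i)
    = if i.1.val = K - 1 then χ i.2 • Lft H h ε i else 0 := by
  have e1 : pderiv none (Lft H h ε i) = 0 := by
    unfold Lft; split_ifs <;> simp [VV]
  have := NeZero.pos K
  rw [ZZ, Derivation.leibniz, e1, smul_zero, add_zero, Rgt]
  split_ifs <;> first | omega | simp

theorem chain_step (hH : Had H h) (G : Gau (Fin K × C)) (s : ℝ) {j : ℕ} (hj : j + 1 < K) (a : C)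
    (f : (Fin K × C → Bool) → ℝ) {A : Finset (Fin K × C)} (h1 : ix K (j + 1) a ∈ A)
    (h2 : ∀ i ∈ A, i.1.val ≠ j) :
    G.L s (Lft H h ε (ix K (j + 1) a) * DD f A (ZZ H h ε χ)) = ε ^ 2 * h * ∑ b, H a b *
      G.L s (Lft H h ε (ix K j b) * DD f (insert (ix K j b) A) (ZZ H h ε χ)) := by
  rw [Lft, if_neg (by rw [ix_val hj]; omega), smul_mul_assoc, map_smul, stein_V, DD_deriv,
    sum_congr rfl (g := fun i => if i.1.val = j then (ε * h * H a i.2) •
      (Lft H h ε i * DD f (insert i A) (ZZ H h ε χ)) else 0), sum_ix (by omega), map_sum,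
      smul_eq_mul, mul_sum, mul_sum]
  · refine sum_congr rfl fun b _ => ?_
    rw [map_smul, smul_eq_mul]
    simp only [ix]
    ring
  · intro i _
    split_ifs with h3 h4 h4
    · exact absurd h4 (h2 i h3)
    · rfl
    · rw [dV_ZZ hH hj a (by rintro rfl; exact h3 h1), if_pos h4, smul_mul_assoc]
    · rw [dV_ZZ hH hj a (by rintro rfl; exact h3 h1), if_neg h4, zero_mul]

theorem chain (hH : Had H h) (hχ : ∀ a, |χ a| ≤ 1) (G : Gau (Fin K × C)) (s : ℝ)
    (f : (Fin K × C → Bool) → ℝ) : ∀ i j, j + i + 1 = K → ∃ σ : (Fin K → C) → ℝ,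
      (∀ a, |σ a| ≤ 1) ∧ (∀ a r b, r.val < j → σ (update a r b) = σ a) ∧
      (Fintype.card C : ℝ) ^ j * G.L s (pderiv none (DD f ∅ (ZZ H h ε χ))) = (ε ^ 2 * h) ^ i *
        ∑ a, σ a * G.L s (Lft H h ε (ix K j (a (Fin.ofNat K j))) * DD f (TT j a) (ZZ H h ε χ)) := by
  have N0 := hH.card_pos
  intro i
  induction i with
  | zero =>
    intro j hj
    have hj' : (Fin.ofNat K j).val = j := ix_val (C := Unit) (by omega) ()
    refine ⟨fun a => χ (a (Fin.ofNat K j)), fun a => hχ _, fun a r b hr => by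
      dsimp only; rw [update_of_ne (by rintro rfl; omega)], ?_⟩
    have e1 : ∀ a : Fin K → C, TT j a = {ix K j (a (Fin.ofNat K j))} := fun a => by
      ext ⟨r, b⟩
      simp only [TT, mem_filter, mem_univ, true_and, mem_singleton, ix, Prod.ext_iff]
      have : j ≤ r.val ↔ r = Fin.ofNat K j := by rw [Fin.ext_iff]; omega
      rw [this]
      exact and_congr_right fun h => by rw [h]
    have e2 := avg_sum (Fin.ofNat K j) fun a : Fin K → C => χ (a (Fin.ofNat K j)) *
      G.L s (Lft H h ε (ix K j (a (Fin.ofNat K j))) * DD f (TT j a) (ZZ H h ε χ))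
    refine mul_left_cancel₀ N0.ne' ?_
    rw [pow_zero, one_mul, ← e2, DD_deriv]
    simp only [e1, update_self, notMem_empty, if_false, dn_ZZ, ite_mul, zero_mul,
      show K - 1 = j by omega, sum_ix (show j < K by omega), map_sum, smul_mul_assoc, map_smul]
    rw [sum_const, card_univ, Fintype.card_fun, Fintype.card_fin, ← mul_assoc, ← pow_succ']
    simp [ix, show j + 1 = K by omega]
  | succ i ih =>
    intro j hj
    obtain ⟨σ, h1, h2, h3⟩ := ih (j + 1) (by omega)
    have hj' : (Fin.ofNat K j).val = j := ix_val (C := Unit) (by omega) ()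
    have hj'' : (Fin.ofNat K (j + 1)).val = j + 1 := ix_val (C := Unit) (by omega) ()
    refine ⟨fun a => σ a * H (a (Fin.ofNat K (j + 1))) (a (Fin.ofNat K j)), fun a => by
      rw [abs_mul, hH.abs, mul_one]; exact h1 a, fun a r b hr => by
        dsimp only; rw [h2 _ _ _ (by omega), update_of_ne (by rintro rfl; omega),
          update_of_ne (by rintro rfl; omega)], ?_⟩
    refine mul_left_cancel₀ N0.ne' ?_
    rw [← mul_assoc, ← pow_succ', h3, mul_left_comm, ← avg_sum (Fin.ofNat K j), pow_succ _ i,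
      mul_assoc (_ ^ i), mul_sum (a := ε ^ 2 * h)]
    congr 1
    refine sum_congr rfl fun a _ => ?_
    rw [chain_step hH G s (by omega) _ f (by simp only [TT, ix, mem_filter, hj'']; simp)
      (fun i hi => by simp only [TT, mem_filter] at hi; omega), mul_left_comm, mul_sum]
    congr 1
    refine sum_congr rfl fun b _ => ?_
    have e : TT j (update a (Fin.ofNat K j) b) = insert (ix K j b) (TT (j + 1) a) := by
      ext ⟨r, c⟩
      simp only [TT, mem_filter, mem_univ, true_and, mem_insert, ix, Prod.ext_iff]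
      by_cases hr : r = Fin.ofNat K j
      · simp only [hr, hj', update_self]; simp
      · rw [update_of_ne hr]
        have : r.val ≠ j := fun h => hr (Fin.ext (by omega))
        simp only [hr, false_and, false_or]
        exact and_congr_left fun _ => by omega
    dsimp only
    rw [e, h2 _ _ _ (by omega), update_self, update_of_ne (by rw [Ne, Fin.ext_iff]; omega),
      mul_assoc]

theorem mean_SS (hH : Had H h) (G : Gau (Fin K × C)) (s : ℝ) : ∀ r < K, ∀ a,
    G.L s (Lft H h ε (ix K r a) * SS H (fun r a => ZZ H h ε χ (ix K r a)) r a)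
      = (ε ^ 2 * h * Fintype.card C) ^ r := by
  intro r
  induction r with
  | zero => intro hr a; simp [Lft, SS, ix, G.one]
  | succ r ih =>
    intro hr a
    have e : ∀ r' ≤ r, ∀ b, ix K r' b ≠ ix K (r + 1) a := fun r' h' b e => by
      have := congrArg (fun i => i.1.val) e
      simp only [ix_val hr, ix_val (show r' < K by omega)] at this
      omega
    rw [Lft, if_neg (by rw [ix_val hr]; omega), smul_mul_assoc, map_smul, stein_V]
    simp only [SS, map_sum, Derivation.map_smul, Derivation.leibniz, dV_ZZ hH hr a (e r le_rfl _),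
      SS_deriv _ H _ r fun r' h' b => (dV_ZZ (ε := ε) (χ := χ) hH hr a (e r' h'.le b)).trans
        (if_neg (by rw [ix_val (by omega)]; omega)), ix_val (show r < K by omega), if_true,
      mul_zero, zero_add, smul_eq_mul, smul_mul_assoc, map_smul, mul_comm (SS _ _ _ _),
      ih (by omega)]
    rw [sum_congr rfl (g := fun _ => ε * h * (ε ^ 2 * h * Fintype.card C) ^ r) fun b _ => by
      have := hH.sq a b
      simp only [ix]
      linear_combination ε * h * (ε ^ 2 * h * Fintype.card C) ^ r * this]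
    simp
    ring

theorem max_bound (hK : 2 ≤ K) (hχ : ∀ a, |χ a| ≤ 1) {s : ℝ} (hs : |s| ≤ 1) {q : ℕ} (hq : q ≠ 0)
    (u : Fin K × C → ℝ) :
    ∏ j, max 1 (2 * |aeval (fun o : Option (Fin K × C) => o.elim s u) (ZZ H h ε χ j)|)
      ≤ aeval (fun o : Option (Fin K × C) => o.elim s u) ((1 / 2 : ℝ) •
        (∏ i, (1 + (2 * ε) ^ (2 * q) • X (some i) ^ (2 * q))
          + ∏ i, (1 + (2 * ε) ^ (2 * q) • VV H h i ^ (2 * q)) : RR K C)) := by
  simp only [map_smul, map_add, map_prod, map_one, map_pow, aeval_X, Option.elim, smul_eq_mul,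
    ← mul_pow]
  have hm : ∀ t : ℝ, max 1 |t| ^ 2 ≤ 1 + t ^ (2 * q) := fun t => by
    have h0 : 0 ≤ t ^ (2 * q) := (even_two_mul q).pow_nonneg t
    rcases le_total |t| 1 with h | h
    · rw [max_eq_left h]; linarith
    · rw [max_eq_right h, ← (even_two_mul q).pow_abs]
      have := pow_le_pow_right₀ h (show 2 ≤ 2 * q by omega)
      linarith
  let v := fun i => aeval (fun o : Option (Fin K × C) => o.elim s u) (VV H h i)
  calc _ ≤ ∏ j, max 1 |2 * ε * u j| * max 1 |2 * ε * v j| := by
        refine prod_le_prod (fun _ _ => by positivity) fun j _ => ?_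
        have a1 := le_max_left 1 |2 * ε * u j|
        have a2 := le_max_right 1 |2 * ε * u j|
        have b1 := le_max_left 1 |2 * ε * v j|
        have b2 := le_max_right 1 |2 * ε * v j|
        generalize max 1 |2 * ε * u j| = A at *
        generalize max 1 |2 * ε * v j| = B at *
        rw [mul_assoc, abs_mul, abs_two] at a2 b2
        refine max_le (by nlinarith) ?_
        have := abs_nonneg (ε * u j)
        have := abs_nonneg (ε * v j)
        simp only [ZZ, Lft, Rgt]
        split_ifs with h1 h2 h2 <;> simp only [map_mul, map_smul, aeval_X, smul_eq_mul, one_mul]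
        · omega
        · nlinarith
        · have : |χ j.2 * s| ≤ 1 := by
            rw [abs_mul]; exact mul_le_one₀ (hχ _) (abs_nonneg _) hs
          rw [abs_mul]
          change 2 * (|ε * v j| * _) ≤ _
          nlinarith [abs_nonneg (χ j.2 * s)]
        · rw [abs_mul]
          change 2 * (|ε * v j| * _) ≤ _
          nlinarith
    _ ≤ 1 / 2 * ((∏ j, max 1 |2 * ε * u j|) ^ 2 + (∏ j, max 1 |2 * ε * v j|) ^ 2) := by
        rw [prod_mul_distrib]
        nlinarith [sq_nonneg (∏ j, max 1 |2 * ε * u j| - ∏ j, max 1 |2 * ε * v j|)]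
    _ ≤ _ := by
        simp only [← prod_pow]
        gcongr <;> exact hm _

theorem hard (hH : Had H h) (hK : 2 ≤ K) (ε : ℝ) {q : ℕ} (hq : q ≠ 0) {Λ : ℝ}
    (hΛ : (1 + (2 * ε) ^ (2 * q) * mom q) ^ (K * Fintype.card C) ≤ Λ) {p : ℕ} (hp : Even p)
    (hp0 : p ≠ 0) {t ν : ℝ} (ht : 0 < t) (ht1 : t ≤ 1) (hν0 : 0 ≤ ν)
    (hν : (Fintype.card C : ℝ) ^ K ≤ ν ^ p) :
    ∃ (μ : C → (Fin K × C → Bool) → ℝ) (μ0 : (Fin K × C → Bool) → ℝ),
      (∀ α, ∑ x, μ α x = 1) ∧ (∀ α, ∑ x, |μ α x| ≤ Λ) ∧ ∑ x, |μ0 x| ≤ Λ ∧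
      (∀ α, ∑ x, μ α x * (h ^ (K + 1) * SS H (fun r a => sg (x (ix K r a))) K α)
        = (ε ^ 2) ^ (K - 1)) ∧
      ∀ (φ : Bool → ℝ) (d : ℕ) (g : (Fin K × C → Bool) → Bool), (∀ v, |φ v| ≤ 1) → Dp d g →
        d * t ^ 2 ≤ 1 → ∀ α, |∑ x, μ α x * φ (g x) - ∑ x, μ0 x * φ (g x)|
          ≤ (ε ^ 2 * h) ^ (K - 1) * (Real.exp (2 ^ p) * (4 / t) ^ K * ν * Λ) := by
  obtain ⟨G⟩ := exists_gau (Fin K × C)
  let m : ℝ → (C → ℝ) → (Fin K × C → Bool) → ℝ := fun s χ x => G.L s (∏ j,
    (algebraMap ℝ (RR K C) (1 / 2) + (sg (x j) / 2) • ZZ H h ε χ j))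
  have hm : ∀ s χ f, ∑ x, m s χ x * f x = G.L s (DD f ∅ (ZZ H h ε χ)) := fun s χ f => by
    simp only [m, DD, notMem_empty, if_false, map_sum, map_smul, smul_eq_mul, mul_comm]
  let B : RR K C := (1 / 2 : ℝ) • (∏ i, (1 + (2 * ε) ^ (2 * q) • X (some i) ^ (2 * q))
          + ∏ i, (1 + (2 * ε) ^ (2 * q) • VV H h i ^ (2 * q)))
  have hB : ∀ s, G.L s B ≤ Λ := fun s => by
    simp only [B, map_smul, map_add]
    rw [mom_prod _ (G.one s) _ (fun i => pderiv (some i)) (G.stein s) fun i j => by
        simp [pderiv_X, Pi.single_apply, eq_comm],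
      mom_prod _ (G.one s) _ _ (stein_V G s) (dV_VV hH)]
    simp only [card_univ, Fintype.card_prod, Fintype.card_fin, smul_eq_mul]
    linarith
  have hT : ∀ s χ, |s| ≤ 1 → (∀ a, |χ a| ≤ 1) → ∑ x, |m s χ x| ≤ Λ := fun s χ hs hχ => by
    have : ∑ x, |m s χ x| = ∑ x, m s χ x * if 0 ≤ m s χ x then 1 else -1 :=
      sum_congr rfl fun x _ => by
        split_ifs with h
        · rw [abs_of_nonneg h, mul_one]
        · rw [abs_of_neg (not_le.1 h), mul_neg_one]
    rw [this, hm]
    refine le_trans (G.mono fun u => ?_) (hB s)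
    rw [DD_map]
    exact ((le_abs_self _).trans (DD_abs _ (fun x => by split_ifs <;> simp) _)).trans
      (max_bound hK hχ hs hq u)
  obtain ⟨k, rfl⟩ : ∃ k, K = k + 1 := ⟨K - 1, by omega⟩
  refine ⟨fun α => m 1 (H α), m 0 0, fun α => ?_, fun α => hT _ _ (by simp) fun a => (hH.abs _ _).le,
    hT _ _ (by simp) (by simp), fun α => ?_, fun φ d g hφ hg hd α => ?_⟩
  · have := hm 1 (H α) fun _ => 1
    simp only [mul_one] at this
    exact this.trans ((G.congr fun u => by rw [DD_map, DD_one, map_one]).trans (G.one 1))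
  · simp only [mul_left_comm _ (h ^ _), ← mul_sum, hm]
    rw [G.congr (q := ∑ a, Lft H h ε (ix (k + 1) k a) *
      SS H (fun r a => ZZ H h ε (H α) (ix (k + 1) r a)) k a) fun u => ?_]
    · simp only [map_sum, mean_SS hH G 1 k (by omega), sum_const, card_univ, nsmul_eq_mul,
        add_tsub_cancel_right]
      calc _ = (h * h * Fintype.card C) ^ (k + 1) * (ε ^ 2) ^ k := by ring
        _ = _ := by rw [hH.norm, one_pow, one_mul]
    · rw [DD_map, SS_DD H (ix (k + 1)) _ _ fun r₁ r₂ a b h1 h2 e => by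
        have := congrArg (fun i => i.1.val) e
        simp only [ix_val h2, ix_val (show r₁ < k + 1 by omega)] at this
        omega]
      simp only [SS, map_sum, map_mul, SS_map]
      refine sum_congr rfl fun a _ => ?_
      rw [ZZ, Rgt, if_pos (by rw [ix_val (by omega)])]
      simp only [map_mul, map_smul, aeval_X, Option.elim_none, smul_eq_mul, mul_one]
      have : ∀ x y : ℝ, H α a * (x * H α a * y) = x * y := fun x y => by
        linear_combination x * y * hH.sq α a
      exact this _ _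
  · rw [hm, hm, G.congr (p := DD _ ∅ (ZZ H h ε 0)) (q := DD (fun x => φ (g x)) ∅ (ZZ H h ε (H α)))
      fun u => by
        simp only [DD_map, ZZ, Rgt, map_mul, apply_ite (aeval _), map_smul, aeval_X]
        simp]
    refine norm_image_sub_le_of_norm_deriv_le_segment_01'
      (f := fun s => G.L s (DD (fun x => φ (g x)) ∅ (ZZ H h ε (H α))))
      (fun s _ => (G.deriv s _).hasDerivWithinAt) fun s hs => ?_
    obtain ⟨σ, h1, -, h3⟩ := chain (ε := ε) hH (fun a => (hH.abs α a).le) G s (fun x => φ (g x)) k 0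
      (by omega)
    have h0 := hH.pos
    rw [pow_zero, one_mul] at h3
    rw [h3, Real.norm_eq_abs, abs_mul, abs_of_nonneg (by positivity), add_tsub_cancel_right]
    gcongr
    have e : ∀ a, Lft H h ε (ix (k + 1) 0 a) = 1 := fun a => if_pos (ix_val (by omega) _)
    simp only [e, one_mul, ← smul_eq_mul (σ _), ← map_smul, ← map_sum]
    refine (G.abs_le (q := (Real.exp (2 ^ p) * (4 / t) ^ (k + 1) * ν) • B) fun u => ?_).trans ?_
    · simp only [map_sum, map_smul, DD_map, smul_eq_mul]
      refine (growth_tuple hp hp0 ht ht1 hφ hg hd (TT 0) (fun a b e => funext fun r => ?_)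
        (K := k + 1) (fun a => ?_) σ h1 hν0 (by simpa using hν) _).trans ?_
      · have : (r, a r) ∈ TT 0 a := by simp [TT]
        rw [e] at this
        simpa [TT] using this
      · rw [show TT 0 a = univ.map ⟨fun r => (r, a r), fun _ _ e => congrArg Prod.fst e⟩ by
          ext ⟨r, b⟩; simp [TT, eq_comm]]
        simp
      · gcongr
        exact max_bound hK (fun a => (hH.abs α a).le) (by rw [abs_of_nonneg hs.1]; exact hs.2.le)
          hq u
    · rw [map_smul, smul_eq_mul]
      gcongr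
      exact hB s

end Crest.Agent.H0554
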