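import Crest.Agent.H0554.Build

/-! Choice of parameters. -/

set_option autoImplicit false
set_option linter.unusedSectionVars false

namespace Crest.Agent.H0554

open Finset Function Crest.MathPhysics.Query

theorem num_tv {x γ : ℝ} {L : ℕ} (hx : 0 ≤ x) (h : 288 * (x * L) ≤ γ) (γ1 : γ ≤ 1) :
    (1 + x) ^ L ≤ 1 + γ / 144 := by
  have h0 : 0 ≤ x * L := by positivity
  have h1 := (abs_le.1 (Real.abs_exp_sub_one_le (x := x * L)
    (by rw [abs_of_nonneg h0]; linarith))).2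
  rw [abs_of_nonneg h0] at h1
  calc _ ≤ Real.exp x ^ L := by gcongr; rw [add_comm]; exact Real.add_one_le_exp x
    _ = Real.exp (x * L) := by rw [← Real.exp_nat_mul, mul_comm]
    _ ≤ _ := by linarith

theorem core (K A B : ℕ) (hK : 1 ≤ K) (h1 : B * (K + 1) + 2 ≤ A * K) (h2 : B + (K + 1) ≤ A) :
    ∃ c₀ C : ℝ, 0 < C ∧ ∀ t : ℕ, 1 ≤ t → c₀ ≤ 2 ^ t → ∃ (N : ℕ) (F : (Fin N → Bool) → Bool),
      (∃ Q : ℕ, (Q : ℝ) ≤ C * t ^ 4 * (2 ^ t) ^ (A + 6 * K) ∧ QuantumComputes F Q) ∧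
      ∀ r, RandomizedComputes F r → ((2 : ℝ) ^ t) ^ (2 * (A + B)) ≤ 6 * r := by
  classical
  set q := A + (K + 1) with hq
  set p := 2 * A * (K + 1) with hp
  have m0 := mom_nonneg q
  set c₁ : ℝ := (K + 1 : ℕ) * 2 ^ (2 * q) * mom q with hc₁
  set c₂ : ℝ := Real.exp (2 ^ p) * 4 ^ (K + 1) with hc₂
  have c₁0 : 0 ≤ c₁ := by positivity
  have c₂0 : 0 ≤ c₂ := by positivity
  have A1 : 1 ≤ A := by omega
  refine ⟨288 * (1 + c₁ + c₂), 4608 * (K + 2) * (10 * K + 26) * (2 * A) ^ 4 + 1, by positivity,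
    fun t ht hT => ?_⟩
  set T : ℝ := 2 ^ t with hT'
  have T1 : 1 ≤ T := one_le_pow₀ one_le_two
  have T0 : 0 < T := by positivity
  set n := t * (2 * A) with hn
  have n1 : 1 ≤ n := Nat.mul_pos ht (by omega)
  have hN : (2 : ℝ) ^ n = T ^ (2 * A) := pow_mul _ _ _
  have hH : Had (Hd (n := n)) (T ^ A)⁻¹ := Hd_had (by positivity) (by rw [hN]; field_simp; ring)
  set γ : ℝ := (T⁻¹ ^ 2) ^ K with hγ
  have hγ' : γ = (T ^ (2 * K))⁻¹ := by rw [hγ, ← pow_mul, inv_pow]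
  have γ0 : 0 < γ := by positivity
  have γ1 : γ ≤ 1 := by rw [hγ']; exact inv_le_one_of_one_le₀ (one_le_pow₀ T1)
  have hC : (Fintype.card (Cu n) : ℝ) = T ^ (2 * A) := by simpa using hN
  obtain ⟨μ, μ0, a1, a2, a3, a4, a5⟩ := hard (K := K + 1) hH (by omega) T⁻¹ (q := q) (by omega)
    (Λ := 1 + γ / 144) (num_tv (by positivity) (by
      push_cast
      rw [hC, hγ']
      calc _ = 288 * c₁ / T ^ 2 * (T ^ (2 * K))⁻¹ := by
            rw [hc₁, mul_pow, inv_pow, hq]; push_cast; field_simp; ring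
        _ ≤ 1 * _ := by
            gcongr
            rw [div_le_one (by positivity)]
            nlinarith
        _ = _ := one_mul _) γ1) (p := p) ⟨A * (K + 1), by rw [hp]; ring⟩ (by positivity)
    (t := (T ^ B)⁻¹) (ν := T) (by positivity) (inv_le_one_of_one_le₀ (one_le_pow₀ T1)) T0.le
    (by rw [hC, ← pow_mul])
  have hB : ((2 ^ (t * (2 * B)) : ℕ) : ℝ) = T ^ (2 * B) := by push_cast; exact pow_mul _ _ _
  have hBN : 288 * ((2 ^ (t * (2 * B)) : ℕ) : ℝ) ≤ γ * Fintype.card (Cu n) := by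
    rw [hB, hC, hγ', le_inv_mul_iff₀ (by positivity)]
    calc _ = 288 * T ^ (2 * (B + K)) := by ring
      _ ≤ T ^ 2 * T ^ (2 * (B + K)) := by gcongr; nlinarith
      _ ≤ _ := by rw [← pow_add]; exact pow_le_pow_right₀ T1 (by omega)
  obtain ⟨wt, w0, w1, wP, hw⟩ := weights (by simp) μ (amp (T ^ A)⁻¹) μ0 (γ := γ)
    (B := 2 ^ (t * (2 * B))) a1 a2 a3 a4 (fun α x => by
      rw [← sq_le_one_iff_abs_le_one, ← hH.mass Hd_symm (fun r a => x (ix (K + 1) r a)) (K + 1)]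
      exact single_le_sum (f := fun α => amp (T ^ A)⁻¹ α x ^ 2) (fun _ _ => sq_nonneg _)
        (mem_univ α))
    (fun g hg α => a5 ind _ g (fun v => by cases v <;> simp [ind]) hg (by
      rw [hB, inv_pow, ← pow_mul T B, mul_comm B, mul_inv_cancel₀ (by positivity)]) α) γ0 γ1 le_rfl (by
      calc _ ≤ (T⁻¹ ^ 2 * (T ^ A)⁻¹) ^ K * (Real.exp (2 ^ p) * (4 / (T ^ B)⁻¹) ^ (K + 1) * T * 2) := by
            rw [add_tsub_cancel_right]; gcongr; linarith
        _ = γ * (2 * c₂ * T ^ (B * (K + 1) + 1) / T ^ (A * K)) := by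
            rw [hγ, hc₂, mul_pow, div_inv_eq_mul, mul_pow, inv_pow (T ^ A), ← pow_mul T A,
              ← pow_mul T B]
            field_simp; ring
        _ ≤ γ * (1 / 144) := by
            refine mul_le_mul_of_nonneg_left ?_ γ0.le
            rw [div_le_iff₀ (by positivity)]
            calc _ ≤ 1 / 144 * (T * T ^ (B * (K + 1) + 1)) := by
                  rw [← mul_assoc (1 / 144 : ℝ)]
                  exact mul_le_mul_of_nonneg_right (by linarith) (by positivity)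
              _ ≤ _ := by rw [← pow_succ']; gcongr
        _ = _ := by ring) hBN
  obtain ⟨dec, enc, hd⟩ := exists_dec (n * (K + 1))
  let e := Fintype.equivFin (Ix n (K + 1) (n * (K + 1) + 2))
  let F := fun x : Fin _ → Bool => decide (∃ c, ∀ t, chk dec (T ^ A)⁻¹ (γ / 4) (x ∘ e) c t)
  have hF : ∀ x, F x = true ↔ ∃ c, ∀ t, chk dec (T ^ A)⁻¹ (γ / 4) (x ∘ e) c t :=
    fun x => decide_eq_true_iff
  have n1' : (1 : ℝ) ≤ n := by exact_mod_cast n1
  have K0 : (0 : ℝ) ≤ K := by positivity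
  have TA : 1 ≤ T ^ A := one_le_pow₀ T1
  set Λ₀ : ℝ := 2 * (K + 2) * n * T ^ A with hΛ₀
  have hΛ₀' : Λ₀ ^ 2 = 4 * (K + 2) ^ 2 * n ^ 2 * 2 ^ n := by rw [hΛ₀, hN]; ring
  have Λ1 : 1 ≤ Λ₀ := by
    calc (1 : ℝ) ≤ 2 * (0 + 2) * 1 * 1 := by norm_num
      _ ≤ _ := by rw [hΛ₀]; gcongr
  have Λ2 : Λ₀ ≤ Λ₀ / (γ / 4) := le_div_self (by linarith) (by positivity) (by linarith)
  refine ⟨_, F, ⟨⌈6 * (2 * (n + 2) * ((10 * K + 26) * n ^ 2) * (Λ₀ / (γ / 4)) / (γ / 4) ^ 2)⌉₊, ?_,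
    upper e F hF hH (by positivity) (by linarith) n1 ?_ (Λ1.trans Λ2) ?_ ?_
      (Nat.ceil_pos.2 (by positivity)) (Nat.le_ceil _)⟩, fun r hr => ?_⟩
  · refine (Nat.ceil_lt_add_one (by positivity)).le.trans ?_
    rw [add_mul _ (1 : ℝ), add_mul _ (1 * _ : ℝ)]
    refine add_le_add ?_ ?_
    · calc _ ≤ 6 * (2 * (3 * n) * ((10 * K + 26) * n ^ 2) * (Λ₀ / (γ / 4)) / (γ / 4) ^ 2) := by
            gcongr; linarith
        _ = _ := by rw [hΛ₀, hγ', hn]; push_cast; field_simp; ring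
    · have : (1 : ℝ) ≤ t := by exact_mod_cast ht
      calc (1 : ℝ) = 1 * 1 ^ 4 * 1 := by norm_num
        _ ≤ _ := by gcongr; exact one_le_pow₀ T1
  · push_cast
    nlinarith [mul_le_mul n1' n1' zero_le_one (by linarith), mul_nonneg K0 (sq_nonneg (n : ℝ))]
  · rw [div_pow Λ₀, mul_div_cancel₀ _ (by positivity), hΛ₀']
    gcongr <;> nlinarith
  · refine le_trans ?_ (pow_le_pow_left₀ (by linarith) Λ2 2)
    rw [hΛ₀']
    have : (1 : ℝ) ≤ 2 ^ n := one_le_pow₀ one_le_two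
    simp only [Fintype.card_sum, Fintype.card_prod, Fintype.card_fun, Fintype.card_bool,
      Fintype.card_fin, Fintype.card_unit]
    push_cast
    calc _ ≤ (K + 4 + (K + 1) * n) * (2 : ℝ) ^ n := by linarith
      _ ≤ _ := by
        gcongr
        nlinarith [mul_le_mul n1' n1' zero_le_one (by linarith), mul_nonneg K0 (sq_nonneg (n : ℝ)),
          mul_nonneg (sq_nonneg (K : ℝ)) (sq_nonneg (n : ℝ))]
  · have := lower' e F hF hd wt w0 w1 wP hw (by
      have : (12 : ℝ) * (2 ^ (t * (2 * B)) : ℕ) ≤ (2 ^ n : ℕ) := by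
        have e : γ * Fintype.card (Cu n) ≤ (2 ^ n : ℕ) := by
          simpa using γ1
        have : (0 : ℝ) ≤ (2 ^ (t * (2 * B)) : ℕ) := by positivity
        linarith
      exact_mod_cast this) hr
    rwa [hB, hN, ← pow_add, ← mul_add, add_comm B] at this

end Crest.Agent.H0554
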