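import Crest.Agent.H0554.Rep

/-! Fourier growth of decision trees. -/

set_option autoImplicit false
set_option linter.unusedSectionVars false

namespace Crest.Agent.H0554

open Finset

theorem two_point_aux {a b t : ℝ} (ha : 0 ≤ a) (hb : 0 ≤ b) (ht : 0 ≤ t) (ht1 : t ≤ 1)
    (hab : b ≤ t * a) (p : ℕ) : (a + b) ^ p + (a - b) ^ p ≤ 2 * a ^ p * (1 + (2 ^ p - 1) * t ^ 2)
      ∧ (a + b) ^ p - (a - b) ^ p ≤ 2 * a ^ p * ((2 ^ p - 1) * t) := by
  induction p with
  | zero => norm_num
  | succ p ih =>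
    have h2 : (0 : ℝ) ≤ 2 ^ p - 1 := sub_nonneg.2 (one_le_pow₀ one_le_two)
    have t2 : t ^ 2 ≤ 1 := pow_le_one₀ ht ht1
    constructor
    · calc _ = a * ((a + b) ^ p + (a - b) ^ p) + b * ((a + b) ^ p - (a - b) ^ p) := by ring
        _ ≤ a * (2 * a ^ p * (1 + (2 ^ p - 1) * t ^ 2))
          + b * (2 * a ^ p * ((2 ^ p - 1) * t)) := by gcongr; exacts [ih.1, ih.2]
        _ ≤ a * (2 * a ^ p * (1 + (2 ^ p - 1) * t ^ 2))
          + t * a * (2 * a ^ p * ((2 ^ p - 1) * t)) := by gcongr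
        _ = 2 * a ^ (p + 1) * (1 + (2 ^ (p + 1) - 2) * t ^ 2) := by ring
        _ ≤ _ := by gcongr; norm_num
    · calc _ = a * ((a + b) ^ p - (a - b) ^ p) + b * ((a + b) ^ p + (a - b) ^ p) := by ring
        _ ≤ a * (2 * a ^ p * ((2 ^ p - 1) * t))
          + b * (2 * a ^ p * (1 + (2 ^ p - 1) * t ^ 2)) := by gcongr; exacts [ih.2, ih.1]
        _ ≤ a * (2 * a ^ p * ((2 ^ p - 1) * t))
          + t * a * (2 * a ^ p * (1 + (2 ^ p - 1) * 1)) := by gcongr
        _ = _ := by ring

theorem two_point {p : ℕ} (hp : Even p) {t : ℝ} (ht : 0 < t) (ht1 : t ≤ 1) (a b : ℝ) :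
    (a + 2 * b) ^ p + (a - 2 * b) ^ p ≤ 2 * ((1 + 2 ^ p * t ^ 2) * a ^ p + (4 / t) ^ p * b ^ p) := by
  have e : (a + 2 * b) ^ p + (a - 2 * b) ^ p = (|a| + 2 * |b|) ^ p + (|a| - 2 * |b|) ^ p := by
    rcases abs_cases a with ⟨h, _⟩ | ⟨h, _⟩ <;> rcases abs_cases b with ⟨h', _⟩ | ⟨h', _⟩ <;>
      rw [h, h']
    · rw [add_comm]; congr 2 <;> ring
    · rw [add_comm, ← hp.neg_pow (a - _), ← hp.neg_pow (a + _)]; congr 2 <;> ring
    · rw [← hp.neg_pow (a - _), ← hp.neg_pow (a + _)]; congr 2 <;> ring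
  have a0 := hp.pow_nonneg a
  have b0 := hp.pow_nonneg b
  rw [e]
  rcases le_total (2 * |b|) (t * |a|) with h | h
  · refine (two_point_aux (abs_nonneg a) (by positivity) ht.le ht1 h p).1.trans ?_
    rw [hp.pow_abs]
    have : 0 ≤ (4 / t) ^ p * b ^ p := by positivity
    nlinarith [mul_nonneg a0 (sq_nonneg t)]
  · have h1 : |a| + 2 * |b| ≤ 4 / t * |b| := by
      rw [div_mul_eq_mul_div, le_div_iff₀ ht]
      nlinarith [abs_nonneg b]
    have h2 : (|a| + 2 * |b|) ^ p ≤ (4 / t) ^ p * b ^ p := by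
      rw [← hp.pow_abs b, ← mul_pow]; gcongr
    have h3 : (|a| - 2 * |b|) ^ p ≤ (|a| + 2 * |b|) ^ p := by
      rw [← hp.pow_abs]
      gcongr
      rw [abs_le]; constructor <;> linarith [abs_nonneg a, abs_nonneg b]
    have : 0 ≤ (1 + 2 ^ p * t ^ 2) * a ^ p := by positivity
    linarith

variable {I : Type} [Fintype I] [DecidableEq I]

theorem sum_split {R : Type} [AddCommMonoid R] (i : I) (F : Finset I → R) :
    ∑ T, F T = ∑ T, if i ∈ T then 0 else (F T + F (insert i T)) := by
  have h1 : ∑ T, F T = ∑ T ∈ (univ.erase i).powerset, (F T + F (insert i T)) := by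
    rw [sum_add_distrib, ← sum_powerset_insert (notMem_erase i _), insert_erase (mem_univ i),
      powerset_univ]
  rw [h1]
  simp only [← ite_not (i ∈ _), ← sum_filter]
  exact sum_congr (by ext T; simp [subset_erase]) fun _ _ => rfl

/-- weights of a restricted coordinate -/
noncomputable def kap (o : Option Bool) (b : Bool) : ℝ := o.elim (1 / 2) fun c => if b = c then 1 else 0

/-- derivative weights of a restricted coordinate -/
noncomputable def lam (o : Option Bool) (b : Bool) : ℝ := o.elim (sg b) fun _ => 0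

/-- the kernel of a polynomial under a restriction -/
noncomputable def Ker (ρ : I → Option Bool) (P : Finset I → ℝ) (x : I → Bool) : ℝ :=
  ∑ T, P T * ∏ j, if j ∈ T then lam (ρ j) (x j) else kap (ρ j) (x j)

theorem Ker_sum (ρ : I → Option Bool) (P : Finset I → ℝ) : ∑ x, Ker ρ P x = P ∅ := by
  simp only [Ker]
  rw [sum_comm]
  simp only [← mul_sum]
  have : ∀ T : Finset I, ∑ x : I → Bool, ∏ j, (if j ∈ T then lam (ρ j) (x j) else kap (ρ j) (x j))
      = ∏ j, if j ∈ T then 0 else 1 := fun T => by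
    rw [← Fintype.piFinset_univ, ← prod_univ_sum (fun _ => univ)
      fun j b => if j ∈ T then lam (ρ j) b else kap (ρ j) b]
    refine prod_congr rfl fun j _ => ?_
    split_ifs <;> rcases ρ j with _ | _ | _ <;> simp [lam, kap, sg]
  simp only [this]
  rw [sum_eq_single ∅]
  · simp
  · intro T _ hT
    obtain ⟨j, hj⟩ := nonempty_iff_ne_empty.2 hT
    rw [prod_eq_zero (mem_univ j) (by simp [hj]), mul_zero]
  · simp

theorem Ker_some {ρ : I → Option Bool} {i : I} {c : Bool} (h : ρ i = some c) (P : Finset I → ℝ)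
    {x : I → Bool} (hx : x i ≠ c) : Ker ρ P x = 0 :=
  sum_eq_zero fun T _ => by
    rw [prod_eq_zero (mem_univ i) (by simp [h, lam, kap, hx]), mul_zero]

theorem Ker_none {ρ : I → Option Bool} {i : I} (h : ρ i = none) (P : Finset I → ℝ) (b : Bool)
    (x : I → Bool) : Ker (Function.update ρ i (some b))
      (fun T => if i ∈ T then 0 else P T + sg b * (2 * P (insert i T))) x
      = if x i = b then 2 * Ker ρ P x else 0 := by
  split_ifs with hx
  · simp only [Ker]
    rw [sum_split i (fun T => P T * _), mul_sum]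
    refine sum_congr rfl fun T _ => ?_
    split_ifs with hT
    · simp
    · simp only [← mul_prod_erase univ _ (mem_univ i)]
      have e1 : ∏ j ∈ univ.erase i, (if j ∈ T then lam (Function.update ρ i (some b) j) (x j)
          else kap (Function.update ρ i (some b) j) (x j)) = ∏ j ∈ univ.erase i,
            (if j ∈ T then lam (ρ j) (x j) else kap (ρ j) (x j)) :=
        prod_congr rfl fun j hj => by rw [Function.update_of_ne (ne_of_mem_erase hj)]
      have e2 : ∏ j ∈ univ.erase i, (if j ∈ insert i T then lam (ρ j) (x j)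
          else kap (ρ j) (x j)) = ∏ j ∈ univ.erase i,
            (if j ∈ T then lam (ρ j) (x j) else kap (ρ j) (x j)) :=
        prod_congr rfl fun j hj => by simp [ne_of_mem_erase hj]
      rw [e1, e2]
      simp [hT, h, kap, lam, hx]
      ring
  · exact Ker_some (Function.update_self ..) _ hx

theorem growth {p : ℕ} (hp : Even p) (hp0 : p ≠ 0) {β γ : ℝ} (hβ : 1 ≤ β) (hγ : 0 ≤ γ)
    (h2 : ∀ a b : ℝ, (a + 2 * b) ^ p + (a - 2 * b) ^ p ≤ 2 * (β * a ^ p + γ * b ^ p))
    {α : Type} {φ : α → ℝ} (hφ : ∀ v, |φ v| ≤ 1) {d : ℕ} {g : (I → Bool) → α} (hg : Dp d g) :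
    ∀ ρ P, (∑ x, φ (g x) * Ker ρ P x) ^ p ≤ β ^ d * ∑ T, γ ^ T.card * P T ^ p := by
  have W0 : ∀ P : Finset I → ℝ, 0 ≤ ∑ T, γ ^ T.card * P T ^ p := fun P =>
    sum_nonneg fun T _ => mul_nonneg (pow_nonneg hγ _) (hp.pow_nonneg _)
  induction hg with
  | const d c =>
    intro ρ P
    rw [← mul_sum, Ker_sum, mul_pow]
    have h1 : φ c ^ p ≤ β ^ d := by
      rw [← hp.pow_abs]
      exact (pow_le_one₀ (abs_nonneg _) (hφ c)).trans (one_le_pow₀ hβ)
    have h3 : P ∅ ^ p ≤ ∑ T, γ ^ T.card * P T ^ p := le_trans (by simp) (single_le_sum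
      (fun T _ => mul_nonneg (pow_nonneg hγ T.card) (hp.pow_nonneg (P T))) (mem_univ ∅))
    exact mul_le_mul h1 h3 (hp.pow_nonneg _) (by positivity)
  | @read d i g0 g1 _ _ ih0 ih1 =>
    intro ρ P
    have hm : β ^ d * ∑ T, γ ^ T.card * P T ^ p ≤ β ^ (d + 1) * ∑ T, γ ^ T.card * P T ^ p :=
      mul_le_mul_of_nonneg_right (pow_le_pow_right₀ hβ (by omega)) (W0 P)
    rcases h : ρ i with _ | _ | _
    · let Q : Bool → Finset I → ℝ := fun b T =>
        if i ∈ T then 0 else P T + sg b * (2 * P (insert i T))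
      have e : 2 * ∑ x, φ (if x i then g1 x else g0 x) * Ker ρ P x
          = ∑ x, φ (g0 x) * Ker (Function.update ρ i (some false)) (Q false) x
            + ∑ x, φ (g1 x) * Ker (Function.update ρ i (some true)) (Q true) x := by
        rw [mul_sum, ← sum_add_distrib]
        refine sum_congr rfl fun x _ => ?_
        rw [Ker_none h, Ker_none h]
        cases x i <;> simp <;> ring
      have e2 : ∑ T, γ ^ T.card * Q false T ^ p + ∑ T, γ ^ T.card * Q true T ^ p
          ≤ 2 * (β * ∑ T, γ ^ T.card * P T ^ p) := by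
        rw [sum_split i fun T => γ ^ T.card * P T ^ p, mul_sum, mul_sum, ← sum_add_distrib]
        refine sum_le_sum fun T _ => ?_
        simp only [Q]
        split_ifs with hT
        · simp [hp0]
        · rw [card_insert_of_notMem hT, ← mul_add]
          have := h2 (P T) (P (insert i T))
          have h4 := mul_le_mul_of_nonneg_right hβ
            (mul_nonneg hγ (hp.pow_nonneg (P (insert i T))))
          calc _ ≤ γ ^ T.card * (2 * (β * P T ^ p + β * (γ * P (insert i T) ^ p))) := by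
                gcongr; simp only [sg, Bool.false_eq_true, if_false, if_true, one_mul, neg_mul,
                  ← sub_eq_add_neg]; linarith
            _ = _ := by ring
      have e3 := hp.add_pow_le (a := ∑ x, φ (g0 x) * Ker (Function.update ρ i (some false))
        (Q false) x) (b := ∑ x, φ (g1 x) * Ker (Function.update ρ i (some true)) (Q true) x)
      rw [← e, mul_pow] at e3
      obtain ⟨p, rfl⟩ : ∃ q, p = q + 1 := ⟨p - 1, by omega⟩
      refine le_of_mul_le_mul_left (a := 2 ^ (p + 1)) (e3.trans ?_) (by positivity)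
      calc _ ≤ 2 ^ p * (β ^ d * ∑ T, γ ^ T.card * Q false T ^ (p + 1)
            + β ^ d * ∑ T, γ ^ T.card * Q true T ^ (p + 1)) := by
            rw [add_tsub_cancel_right]; gcongr; exacts [ih0 _ _, ih1 _ _]
        _ ≤ 2 ^ p * (β ^ d * (2 * (β * ∑ T, γ ^ T.card * P T ^ (p + 1)))) := by
            rw [← mul_add]; gcongr
        _ = _ := by ring
    · refine le_trans (le_of_eq ?_) ((ih0 ρ P).trans hm)
      congr 1
      refine sum_congr rfl fun x _ => ?_
      by_cases hx : x i = false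
      · simp [hx]
      · simp [Ker_some h P hx]
    · refine le_trans (le_of_eq ?_) ((ih1 ρ P).trans hm)
      congr 1
      refine sum_congr rfl fun x _ => ?_
      by_cases hx : x i = true
      · simp [hx]
      · simp [Ker_some h P hx]

/-- partial derivatives of the multilinear extension -/
noncomputable def DD {R : Type} [CommRing R] [Algebra ℝ R] (f : (I → Bool) → ℝ) (A : Finset I)
    (z : I → R) : R :=
  ∑ x, f x • ∏ j, if j ∈ A then algebraMap ℝ R (sg (x j) / 2)
    else algebraMap ℝ R (1 / 2) + (sg (x j) / 2) • z j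

theorem DD_le (f : (I → Bool) → ℝ) (P : Finset I → ℝ) {L : ℝ}
    (hL : ∀ ρ, |∑ x, f x * Ker ρ P x| ≤ L) (z : I → ℝ) :
    |∑ T, P T * DD f T z| ≤ L * ∏ j, max 1 (2 * |z j|) := by
  let w : ℝ → Option Bool → ℝ := fun s o => o.elim (1 / 2) fun b => 1 / 4 + sg b * s / 2
  have L0 : 0 ≤ L := (abs_nonneg _).trans (hL fun _ => none)
  have e : ∑ T, P T * DD f T z = ∑ ρ : I → Option Bool, (∏ j, w (z j) (ρ j))
      * ∑ x, f x * Ker ρ P x := by
    have : ∀ (T : Finset I) (x : I → Bool), (∏ j, if j ∈ T then algebraMap ℝ ℝ (sg (x j) / 2)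
        else algebraMap ℝ ℝ (1 / 2) + (sg (x j) / 2) • z j) = ∑ ρ : I → Option Bool,
          (∏ j, w (z j) (ρ j)) * ∏ j, if j ∈ T then lam (ρ j) (x j) else kap (ρ j) (x j) := by
      intro T x
      simp only [← prod_mul_distrib]
      rw [← Fintype.piFinset_univ, ← prod_univ_sum (fun _ => univ)
        fun j o => w (z j) o * if j ∈ T then lam o (x j) else kap o (x j)]
      refine prod_congr rfl fun j _ => ?_
      split_ifs <;> cases x j <;> simp [w, lam, kap, sg] <;> ring
    simp only [DD, this]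
    simp only [Ker, mul_sum, smul_eq_mul]
    rw [sum_comm, sum_comm (s := (univ : Finset (I → Option Bool)))]
    refine sum_congr rfl fun x _ => ?_
    rw [sum_comm]
    exact sum_congr rfl fun _ _ => sum_congr rfl fun _ _ => by ring
  rw [e]
  refine (abs_sum_le_sum_abs _ _).trans ?_
  calc _ ≤ ∑ ρ : I → Option Bool, (∏ j, |w (z j) (ρ j)|) * L := sum_le_sum fun ρ _ => by
        rw [abs_mul, abs_prod]; gcongr; exact hL ρ
    _ = L * ∏ j, ∑ o, |w (z j) o| := by
        rw [← sum_mul, mul_comm, prod_univ_sum, Fintype.piFinset_univ]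
    _ ≤ _ := by
        gcongr with j
        have h1 := le_max_left 1 (2 * |z j|)
        have h2 := le_max_right 1 (2 * |z j|)
        simp only [w, Fintype.sum_option, Fintype.sum_bool, Option.elim, sg, if_true,
          Bool.false_eq_true, if_false]
        have := le_abs_self (z j)
        have := neg_abs_le (z j)
        rw [abs_of_pos (a := (1 / 2 : ℝ)) (by norm_num)]
        rcases abs_cases (1 / 4 + -1 * z j / 2) with ⟨h, _⟩ | ⟨h, _⟩ <;>
        rcases abs_cases (1 / 4 + 1 * z j / 2) with ⟨h', _⟩ | ⟨h', _⟩ <;> linarith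

theorem growth_tuple {p : ℕ} (hp : Even p) (hp0 : p ≠ 0) {t ν : ℝ} (ht : 0 < t) (ht1 : t ≤ 1)
    {α : Type} {φ : α → ℝ} (hφ : ∀ v, |φ v| ≤ 1) {d : ℕ} {g : (I → Bool) → α} (hg : Dp d g)
    (hd : d * t ^ 2 ≤ 1) {A : Type} [Fintype A] (Ta : A → Finset I) (inj : Function.Injective Ta)
    {K : ℕ} (hK : ∀ a, (Ta a).card = K) (σ : A → ℝ) (hσ : ∀ a, |σ a| ≤ 1) (hν0 : 0 ≤ ν)
    (hν : Fintype.card A ≤ ν ^ p) (z : I → ℝ) :
    |∑ a, σ a * DD (fun x => φ (g x)) (Ta a) z|
      ≤ Real.exp (2 ^ p) * (4 / t) ^ K * ν * ∏ j, max 1 (2 * |z j|) := by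
  let P := Function.extend Ta σ 0
  have hP : ∀ F : Finset I → ℝ → ℝ, (∀ T, F T 0 = 0) → ∑ a, F (Ta a) (σ a) = ∑ T, F T (P T) :=
    fun F hF => Fintype.sum_of_injective Ta inj _ _
      (fun T hT => by simp only [P]; rw [Function.extend_apply' _ _ _ hT]; exact hF T)
      fun a => by simp only [P]; rw [inj.extend_apply]
  rw [hP (fun T s => s * DD (fun x => φ (g x)) T z) (by simp)]
  refine DD_le _ P (fun ρ => ?_) z
  rw [← pow_le_pow_iff_left₀ (abs_nonneg _) (by positivity) hp0, hp.pow_abs]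
  refine (growth hp hp0 (le_add_of_nonneg_right (by positivity)) (by positivity)
    (two_point hp ht ht1) hφ hg ρ P).trans ?_
  rw [← hP (fun T s => ((4 / t) ^ p) ^ T.card * s ^ p) (by simp [hp0]), mul_assoc, mul_pow, mul_pow]
  refine mul_le_mul ?_ ?_ (sum_nonneg fun a _ => mul_nonneg (by positivity) (hp.pow_nonneg _))
    (by positivity)
  · calc _ ≤ Real.exp (2 ^ p * t ^ 2) ^ d := by
          gcongr; rw [add_comm]; exact Real.add_one_le_exp _
      _ = Real.exp (2 ^ p * (d * t ^ 2)) := by rw [← Real.exp_nat_mul]; ring_nf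
      _ ≤ Real.exp (2 ^ p * 1) := by gcongr
      _ ≤ _ := by
          rw [mul_one]
          exact le_self_pow₀ (Real.one_le_exp (by positivity)) hp0
  · simp only [hK, ← mul_sum]
    rw [← pow_mul, ← pow_mul, mul_comm p]
    gcongr
    refine le_trans (sum_le_sum fun a _ => ?_) (le_trans (by simp) hν : ∑ _a : A, (1 : ℝ) ≤ _)
    rw [← hp.pow_abs]
    exact pow_le_one₀ (abs_nonneg _) (hσ a)

end Crest.Agent.H0554
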