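import Mathlib

/-! Decision tree depth and dual adversary kernels. -/

set_option autoImplicit false
set_option linter.unusedSectionVars false

namespace Crest.Agent.H0554

open Finset

/-- sign of a bit -/
def sg (b : Bool) : ℝ := if b then -1 else 1

theorem sg_sq (b : Bool) : sg b ^ 2 = 1 := by cases b <;> simp [sg]

theorem sg_mul_self (b : Bool) : sg b * sg b = 1 := by cases b <;> simp [sg]

theorem abs_sg (b : Bool) : |sg b| = 1 := by cases b <;> simp [sg]

/-- computable by a decision tree of depth at most `d` -/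
inductive Dp {I β : Type} : ℕ → ((I → Bool) → β) → Prop
  | const (d : ℕ) (c : β) : Dp d (fun _ => c)
  | read {d : ℕ} (i : I) {g0 g1 : (I → Bool) → β} :
      Dp d g0 → Dp d g1 → Dp (d + 1) (fun x => if x i then g1 x else g0 x)

section Dp
variable {I β γ : Type}

theorem Dp.mono {d : ℕ} {g : (I → Bool) → β} (h : Dp d g) : ∀ {d' : ℕ}, d ≤ d' → Dp d' g := by
  induction h with
  | const d c => exact fun _ => Dp.const _ c
  | read i _ _ ih0 ih1 =>
    intro d' hd
    obtain ⟨d', rfl⟩ : ∃ e, d' = e + 1 := ⟨d' - 1, by omega⟩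
    exact Dp.read i (ih0 (by omega)) (ih1 (by omega))

theorem Dp.congr {d : ℕ} {g g' : (I → Bool) → β} (h : Dp d g) (e : ∀ x, g' x = g x) : Dp d g' :=
  (funext e : g' = g) ▸ h

theorem Dp.bind {d d' : ℕ} {g : (I → Bool) → β} (h : Dp d g) {g' : β → (I → Bool) → γ}
    (h' : ∀ v, Dp d' (g' v)) : Dp (d + d') (fun x => g' (g x) x) := by
  induction h with
  | const d c => exact (h' c).mono (by omega)
  | read i _ _ ih0 ih1 =>
    rw [add_right_comm]
    exact (Dp.read i ih0 ih1).congr fun x => by dsimp only; split_ifs <;> rfl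

theorem Dp.map {d : ℕ} {g : (I → Bool) → β} (h : Dp d g) (φ : β → γ) : Dp d (fun x => φ (g x)) :=
  h.bind (d' := 0) (g' := fun v _ => φ v) fun _ => Dp.const _ _

theorem Dp.bit (i : I) : Dp 1 (fun x : I → Bool => x i) :=
  (Dp.read i (Dp.const 0 false) (Dp.const 0 true)).congr fun x => by cases x i <;> rfl

theorem Dp.pair {d d' : ℕ} {g : (I → Bool) → β} {g' : (I → Bool) → γ} (h : Dp d g) (h' : Dp d' g') :
    Dp (d + d') (fun x => (g x, g' x)) :=
  h.bind (g' := fun v x => (v, g' x)) fun v => h'.map fun w => (v, w)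

theorem Dp.map2 {δ : Type} {d d' : ℕ} {g : (I → Bool) → β} {g' : (I → Bool) → γ} (h : Dp d g)
    (h' : Dp d' g') (φ : β → γ → δ) : Dp (d + d') (fun x => φ (g x) (g' x)) :=
  (h.pair h').map fun p => φ p.1 p.2

theorem Dp.pi {d : ℕ} : ∀ (w : ℕ) {g : Fin w → (I → Bool) → β}, (∀ s, Dp d (g s)) →
    Dp (w * d) (fun x s => g s x) := by
  intro w
  induction w with
  | zero => intro g _; exact (Dp.const _ (fun s => s.elim0)).congr fun x => Subsingleton.elim _ _
  | succ w ih =>
    intro g h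
    rw [add_mul, one_mul]
    exact ((ih fun s => h s.succ).map2 (h 0) fun t a => Fin.cons a t).congr fun x => by
      funext s
      refine Fin.cases rfl (fun _ => rfl) s

theorem Dp.bits (w : ℕ) (f : Fin w → I) : Dp w (fun (x : I → Bool) s => x (f s)) := by
  simpa using Dp.pi w fun s => Dp.bit (f s)

end Dp

variable {I : Type} [Fintype I] [DecidableEq I] {X Y : Type}

/-- kernels representable by query differences -/
def Rep (ex : X → I → Bool) (ey : Y → I → Bool) (K : X → Y → ℝ) (a : X → ℝ) (b : Y → ℝ) : Prop :=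
  ∃ (ι : Type) (_ : Fintype ι) (u : X → I → ι → ℝ) (v : Y → I → ι → ℝ),
    (∀ x y, K x y = ∑ j, if ex x j = ey y j then 0 else ∑ s, u x j s * v y j s) ∧
    (∀ x, ∑ j, ∑ s, u x j s ^ 2 ≤ a x) ∧ ∀ y, ∑ j, ∑ s, v y j s ^ 2 ≤ b y

variable {ex : X → I → Bool} {ey : Y → I → Bool}

theorem Rep.of {K K' : X → Y → ℝ} {a a' : X → ℝ} {b b' : Y → ℝ} (h : Rep ex ey K a b)
    (hK : ∀ x y, K' x y = K x y) (ha : ∀ x, a x ≤ a' x) (hb : ∀ y, b y ≤ b' y) :
    Rep ex ey K' a' b' := by
  obtain ⟨ι, _, u, v, h1, h2, h3⟩ := h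
  exact ⟨ι, inferInstance, u, v, fun x y => (hK x y).trans (h1 x y), fun x => (h2 x).trans (ha x),
    fun y => (h3 y).trans (hb y)⟩

theorem Rep.zero : Rep ex ey (fun _ _ => 0) (fun _ => 0) (fun _ => 0) :=
  ⟨Empty, inferInstance, fun _ _ s => s.elim, fun _ _ s => s.elim, by simp, by simp, by simp⟩

theorem Rep.bit (i : I) :
    Rep ex ey (fun x y => if ex x i = ey y i then 0 else 1) (fun _ => 1) (fun _ => 1) := by
  refine ⟨Unit, inferInstance, fun _ j _ => if j = i then 1 else 0,
    fun _ j _ => if j = i then 1 else 0, fun x y => ?_, by simp, by simp⟩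
  rw [sum_eq_single i] <;> simp +contextual

theorem Rep.mul {K : X → Y → ℝ} {a : X → ℝ} {b : Y → ℝ} (h : Rep ex ey K a b) (φ : X → ℝ)
    (χ : Y → ℝ) : Rep ex ey (fun x y => φ x * χ y * K x y) (fun x => φ x ^ 2 * a x)
      (fun y => χ y ^ 2 * b y) := by
  obtain ⟨ι, _, u, v, h1, h2, h3⟩ := h
  refine ⟨ι, inferInstance, fun x j s => φ x * u x j s, fun y j s => χ y * v y j s,
    fun x y => ?_, fun x => ?_, fun y => ?_⟩
  · dsimp only
    rw [h1, mul_sum]
    refine sum_congr rfl fun j _ => ?_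
    split_ifs
    · simp
    · rw [mul_sum]; exact sum_congr rfl fun s _ => by ring
  · simp only [mul_pow, ← mul_sum]
    exact mul_le_mul_of_nonneg_left (h2 x) (sq_nonneg _)
  · simp only [mul_pow, ← mul_sum]
    exact mul_le_mul_of_nonneg_left (h3 y) (sq_nonneg _)

theorem Rep.sum {T : Type} [Fintype T] {K : T → X → Y → ℝ} {a : T → X → ℝ} {b : T → Y → ℝ}
    (h : ∀ t, Rep ex ey (K t) (a t) (b t)) :
    Rep ex ey (fun x y => ∑ t, K t x y) (fun x => ∑ t, a t x) (fun y => ∑ t, b t y) := by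
  choose ι fι u v h1 h2 h3 using h
  refine ⟨Σ t, ι t, inferInstance, fun x j s => u s.1 x j s.2, fun y j s => v s.1 y j s.2,
    fun x y => ?_, fun x => ?_, fun y => ?_⟩
  · simp only [h1, Fintype.sum_sigma]
    rw [sum_comm]
    refine sum_congr rfl fun j _ => ?_
    split_ifs <;> simp
  · simp only [Fintype.sum_sigma]
    rw [sum_comm]
    exact sum_le_sum fun t _ => h2 t x
  · simp only [Fintype.sum_sigma]
    rw [sum_comm]
    exact sum_le_sum fun t _ => h3 t y

theorem Rep.add {K K' : X → Y → ℝ} {a a' : X → ℝ} {b b' : Y → ℝ} (h : Rep ex ey K a b)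
    (h' : Rep ex ey K' a' b') :
    Rep ex ey (fun x y => K x y + K' x y) (fun x => a x + a' x) (fun y => b y + b' y) := by
  simpa using Rep.sum (T := Bool) (K := fun t => if t then K else K')
    (a := fun t => if t then a else a') (b := fun t => if t then b else b')
    (fun t => by cases t; exacts [h', h])

theorem Rep.flip {K : X → Y → ℝ} {a : X → ℝ} {b : Y → ℝ} (h : Rep ex ey K a b) :
    Rep ey ex (fun y x => K x y) b a := by
  obtain ⟨ι, _, u, v, h1, h2, h3⟩ := h
  refine ⟨ι, inferInstance, v, u, fun y x => ?_, h3, h2⟩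
  dsimp only
  rw [h1]
  exact sum_congr rfl fun j _ => if_congr eq_comm rfl (sum_congr rfl fun s _ => mul_comm _ _)

theorem Rep.scale {K : X → Y → ℝ} {a : X → ℝ} {b : Y → ℝ} (h : Rep ex ey K a b) {c : ℝ}
    (hc : 0 < c) : Rep ex ey K (fun x => c * a x) (fun y => b y / c) := by
  have := Real.sqrt_pos.2 hc
  refine (h.mul (fun _ => √c) (fun _ => (√c)⁻¹)).of (fun x y => ?_) (fun x => ?_) fun y => ?_
  · rw [mul_inv_cancel₀ this.ne', one_mul]
  · rw [Real.sq_sqrt hc.le]
  · rw [inv_pow, Real.sq_sqrt hc.le, div_eq_inv_mul]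

theorem Rep.vec {K : X → Y → ℝ} {a : X → ℝ} {b : Y → ℝ} (h : Rep ex ey K a b) {T : Type}
    [Fintype T] (φ : X → T → ℝ) (χ : Y → T → ℝ) :
    Rep ex ey (fun x y => (∑ t, φ x t * χ y t) * K x y) (fun x => (∑ t, φ x t ^ 2) * a x)
      (fun y => (∑ t, χ y t ^ 2) * b y) := by
  simpa only [sum_mul] using Rep.sum fun t => h.mul (fun x => φ x t) (fun y => χ y t)

theorem Dp.rep {β : Type} {d : ℕ} {g : (I → Bool) → β} (h : Dp d g) (ex : X → I → Bool)
    (ey : Y → I → Bool) : ∃ K, Rep ex ey K (fun _ => d) (fun _ => d) ∧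
      ∀ x y, g (ex x) ≠ g (ey y) → K x y = 1 := by
  induction h with
  | const d c => exact ⟨_, Rep.zero.of (fun _ _ => rfl) (fun _ => by positivity)
      (fun _ => by positivity), fun x y h => absurd rfl h⟩
  | read i _ _ ih0 ih1 =>
    obtain ⟨K0, a0, b0⟩ := ih0
    obtain ⟨K1, a1, b1⟩ := ih1
    refine ⟨_, (((Rep.bit i).add (a0.mul (fun x => if ex x i then 0 else 1)
      (fun y => if ey y i then 0 else 1))).add (a1.mul (fun x => if ex x i then 1 else 0)
      (fun y => if ey y i then 1 else 0))).of (fun _ _ => rfl) (fun x => ?_) (fun y => ?_),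
      fun x y h => ?_⟩
    · split_ifs <;> simp [add_comm]
    · split_ifs <;> simp [add_comm]
    · by_cases hx : ex x i = true <;> by_cases hy : ey y i = true <;>
        simp only [hx, hy, if_true, if_false, Bool.false_eq_true] at h <;> simp [hx, hy, b0, b1, h]

theorem cauchy (S : Finset ℝ) (hS : ∀ a ∈ S, 0 < a) : ∃ (ι : Type) (_ : Fintype ι) (φ : ℝ → ι → ℝ),
    ∀ a ∈ S, ∀ b ∈ S, ∑ s, φ a s * φ b s = 1 / (a + b) := by
  classical
  induction S using Finset.induction_on with
  | empty => exact ⟨Empty, inferInstance, fun _ s => s.elim, by simp⟩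
  | insert c S hc ih =>
    obtain ⟨ι, _, φ, h⟩ := ih fun a ha => hS a (mem_insert_of_mem ha)
    have c0 := hS c (mem_insert_self _ _)
    refine ⟨Option ι, inferInstance, fun a s => s.elim (√(2 * c) / (a + c))
      fun s => (a - c) / (a + c) * φ a s, fun a ha b hb => ?_⟩
    have a0 := hS a ha
    have b0 := hS b hb
    have e : ∑ s, (a - c) / (a + c) * φ a s * ((b - c) / (b + c) * φ b s)
        = (a - c) / (a + c) * ((b - c) / (b + c)) * (1 / (a + b)) := by
      rcases mem_insert.1 ha with rfl | ha'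
      · simp
      rcases mem_insert.1 hb with rfl | hb'
      · simp
      rw [← h a ha' b hb', mul_sum]
      exact sum_congr rfl fun s _ => by ring
    simp only [Fintype.sum_option, Option.elim, e]
    rw [div_mul_div_comm, Real.mul_self_sqrt (by positivity)]
    field_simp
    ring

theorem Rep.cauchy [Fintype X] [Fintype Y] {K : X → Y → ℝ} {a : X → ℝ} {b : Y → ℝ}
    (h : Rep ex ey K a b) (p : X → ℝ) (q : Y → ℝ) (hp : ∀ x, 0 < p x) (hq : ∀ y, 0 < q y) :
    Rep ex ey (fun x y => K x y / (p x + q y)) (fun x => a x / (2 * p x))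
      (fun y => b y / (2 * q y)) := by
  classical
  obtain ⟨ι, _, φ, hφ⟩ := H0554.cauchy (univ.image p ∪ univ.image q) (by
    intro a ha
    simp only [mem_union, mem_image, mem_univ, true_and] at ha
    rcases ha with ⟨x, rfl⟩ | ⟨y, rfl⟩
    exacts [hp x, hq y])
  have h1 : ∀ x, p x ∈ univ.image p ∪ univ.image q := fun x => by simp
  have h2 : ∀ y, q y ∈ univ.image p ∪ univ.image q := fun y => by simp
  refine (h.vec (fun x => φ (p x)) (fun y => φ (q y))).of (fun x y => ?_) (fun x => ?_) fun y => ?_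
  · rw [hφ _ (h1 x) _ (h2 y)]; ring
  · simp only [sq]; rw [hφ _ (h1 x) _ (h1 x), ← two_mul]; exact le_of_eq (by ring)
  · simp only [sq]; rw [hφ _ (h2 y) _ (h2 y), ← two_mul]; exact le_of_eq (by ring)

end Crest.Agent.H0554
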